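import Vale.Agent.P125.Renorm

/-!
If a derivation of the unit ball never dies out, there are arbitrarily long sequences in
`L_1(Ω; X)`, bounded in `L_∞`, whose head and tail convex combinations are uniformly separated.
-/

namespace Vale.Agent.P125

open Metric Set

variable {X : Type*} [NormedAddCommGroup X] [NormedSpace ℝ X]

lemma mem_closure_convexHull_of_mem_der {ε : ℝ} {C : Set X} {x : X}
    (hx : x ∈ der ε C) :
    x ∈ closure (convexHull ℝ (C \ closedBall x (ε / 2))) := by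
  by_contra hno
  obtain ⟨φ, α, hlt, hα⟩ := geometric_hahn_banach_closed_point
    (convex_convexHull ℝ (C \ closedBall x (ε / 2))).closure isClosed_closure hno
  obtain ⟨u, hu, v, hv, hφu, hφv, huv⟩ := hx.2 φ α (by simpa using hα)
  have key : ∀ z ∈ C, α < φ z → dist z x ≤ ε / 2 := by
    intro z hz hφz
    by_contra hd
    have := hlt z (subset_closure (subset_convexHull ℝ _ ⟨hz, by simpa using hd⟩))
    linarith
  have := dist_triangle_right u v x
  rw [← dist_eq_norm] at huv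
  linarith [key u hu hφu, key v hv hφv]

lemma exists_combination {ε η : ℝ} (hη : 0 < η) {C : Set X} {x : X} (hx : x ∈ der ε C) :
    ∃ (ι : Type) (_ : Fintype ι) (l : ι → ℝ) (z : ι → X),
      (∀ i, 0 ≤ l i) ∧ ∑ i, l i = 1 ∧ (∀ i, z i ∈ C) ∧ (∀ i, ε / 2 < ‖z i - x‖) ∧
        ‖∑ i, l i • z i - x‖ ≤ η := by
  obtain ⟨y, hy, hxy⟩ := Metric.mem_closure_iff.1 (mem_closure_convexHull_of_mem_der hx) η hη
  rw [mem_convexHull_iff_exists_fintype] at hy
  obtain ⟨ι, _, l, z, hl, hl1, hz, hsum⟩ := hy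
  let e := Fintype.equivFin ι
  refine ⟨Fin (Fintype.card ι), inferInstance, l ∘ e.symm, z ∘ e.symm, fun i => hl _, ?_,
    fun i => (hz _).1, fun i => ?_, ?_⟩
  · rw [← hl1]; exact e.symm.sum_comp l
  · have := (hz (e.symm i)).2
    simpa [dist_eq_norm] using this
  · have : ∑ i, (l ∘ e.symm) i • (z ∘ e.symm) i = y := by
      rw [← hsum]; exact e.symm.sum_comp fun i => l i • z i
    rw [this, ← dist_eq_norm, dist_comm]
    exact hxy.le

/-- A finite bush of depth `k` with approximate root `x`, in martingale language. -/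
def IsBush (k : ℕ) (x : X) (η r : ℝ) : Prop :=
  ∃ (Ω : Type) (_ : Fintype Ω) (w : Ω → ℝ) (F : ℕ → Ω → X) (x₀ : X)
    (A : ℕ → Submodule ℝ (Ω → X)),
    (∀ o, 0 ≤ w o) ∧ ∑ o, w o = 1 ∧ (∀ i ≤ k, ∀ o, ‖F i o‖ ≤ 1) ∧ (∀ o, F 0 o = x₀) ∧
    ‖x₀ - x‖ ≤ k * η ∧ (∀ i ≤ k, ∑ o, w o • F i o = x₀) ∧
    (∀ j, 1 ≤ j → ∀ v : X, (fun _ => v) ∈ A j) ∧ (∀ i j, i < j → j ≤ k → F i ∈ A j) ∧
    ∀ j, 1 ≤ j → j ≤ k → ∀ Φ ∈ A j, ∀ c : ℕ → ℝ, (∀ i, 0 ≤ c i) →
      ∑ i ∈ Finset.Icc j k, c i = 1 →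
      r ≤ ∑ o, w o * ‖(∑ i ∈ Finset.Icc j k, c i • F i o) - Φ o‖

lemma isBush_zero {x : X} (hx : ‖x‖ ≤ 1) (η r : ℝ) : IsBush 0 x η r := by
  refine ⟨Unit, inferInstance, fun _ => 1, fun _ _ => x, x, fun _ => ⊤, fun _ => zero_le_one,
    by simp, fun i _ _ => hx, fun _ => rfl, by simp, fun i _ => by simp, fun j _ v => trivial,
    fun i j _ _ => trivial, fun j hj hj0 => ?_⟩
  omega

lemma isBush_succ {k : ℕ} {x : X} {η r : ℝ} {ι : Type} [Fintype ι] (l : ι → ℝ) (z : ι → X)
    (hl : ∀ i, 0 ≤ l i) (hl1 : ∑ i, l i = 1) (hfar : ∀ i, 4 * r + (2 * k + 1) * η ≤ ‖z i - x‖)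
    (hsum : ‖∑ i, l i • z i - x‖ ≤ η) (hb : ∀ i, IsBush k (z i) η r) :
    IsBush (k + 1) x η r := by
  classical
  choose Ω hΩ w F x₀ A hw hw1 hF hF0 hx₀ hmean hconst hmem hsep using hb
  set X₀ := ∑ c, l c • x₀ c with hX₀
  have hne : ∀ c, Nonempty (Ω c) := fun c => by
    by_contra h
    have := hw1 c
    rw [not_nonempty_iff] at h
    simp at this
  have hx₀1 : ∀ c, ‖x₀ c‖ ≤ 1 := fun c => by
    obtain ⟨o⟩ := hne c
    rw [← hF0 c o]; exact hF c 0 (Nat.zero_le _) o
  have hX₀1 : ‖X₀‖ ≤ 1 := by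
    refine (norm_sum_le _ _).trans ?_
    rw [← hl1]
    refine Finset.sum_le_sum fun c _ => ?_
    rw [norm_smul, Real.norm_eq_abs, abs_of_nonneg (hl c)]
    exact mul_le_of_le_one_right (hl c) (hx₀1 c)
  have hroot : ‖X₀ - x‖ ≤ (k + 1 : ℕ) * η := by
    have e : X₀ - x = (∑ c, l c • (x₀ c - z c)) + (∑ c, l c • z c - x) := by
      simp [hX₀, smul_sub, Finset.sum_sub_distrib]
    rw [e]
    refine (norm_add_le _ _).trans ?_
    have : ‖∑ c, l c • (x₀ c - z c)‖ ≤ k * η := by
      refine (norm_sum_le _ _).trans ?_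
      calc ∑ c, ‖l c • (x₀ c - z c)‖ ≤ ∑ c, l c * (k * η) := by
            refine Finset.sum_le_sum fun c _ => ?_
            rw [norm_smul, Real.norm_eq_abs, abs_of_nonneg (hl c)]
            exact mul_le_mul_of_nonneg_left (hx₀ c) (hl c)
        _ = k * η := by rw [← Finset.sum_mul, hl1, one_mul]
    push_cast
    linarith
  let G : ℕ → (Σ c, Ω c) → X := fun i o =>
    match i with
    | 0 => X₀
    | i + 1 => F o.1 i o.2
  let restr : (c : ι) → ((Σ c, Ω c) → X) →ₗ[ℝ] (Ω c → X) := fun c =>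
    LinearMap.funLeft ℝ X (fun o => Sigma.mk c o)
  let B : ℕ → Submodule ℝ ((Σ c, Ω c) → X) := fun j =>
    if j ≤ 1 then
      LinearMap.range (LinearMap.pi fun _ : (Σ c, Ω c) => (LinearMap.id : X →ₗ[ℝ] X))
    else ⨅ c, Submodule.comap (restr c) (A c (j - 1))
  have hBconst : ∀ j, ∀ v : X, (fun _ => v) ∈ B j := by
    intro j v
    simp only [B]
    split_ifs with h
    · exact ⟨v, rfl⟩
    · rw [Submodule.mem_iInf]
      intro c
      exact hconst c (j - 1) (by omega) v
  refine ⟨Σ c, Ω c, inferInstance, fun o => l o.1 * w o.1 o.2, G, X₀, B,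
    fun o => mul_nonneg (hl _) (hw _ _), ?_, ?_, fun o => rfl, hroot, ?_, fun j _ => hBconst j,
    ?_, ?_⟩
  · rw [Fintype.sum_sigma]
    simp [← Finset.mul_sum, hw1, hl1]
  · intro i hi o
    cases i with
    | zero => exact hX₀1
    | succ i => exact hF o.1 i (by omega) o.2
  · intro i hi
    cases i with
    | zero =>
        show ∑ o : Σ c, Ω c, (l o.1 * w o.1 o.2) • X₀ = X₀
        rw [← Finset.sum_smul, Fintype.sum_sigma]
        simp [← Finset.mul_sum, hw1, hl1]
    | succ i =>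
        show ∑ o : Σ c, Ω c, (l o.1 * w o.1 o.2) • F o.1 i o.2 = X₀
        rw [Fintype.sum_sigma, hX₀]
        refine Finset.sum_congr rfl fun c _ => ?_
        simp_rw [mul_smul]
        rw [← Finset.smul_sum, hmean c i (by omega)]
  · intro i j hij hj
    cases i with
    | zero => exact hBconst j X₀
    | succ i =>
        have h : ¬ j ≤ 1 := by omega
        simp only [B, h, if_false, Submodule.mem_iInf]
        intro c
        exact hmem c i (j - 1) (by omega) (by omega)
  · intro j hj1 hjk Φ hΦ c hc hc1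
    have split : ∑ o : Σ c, Ω c, (l o.1 * w o.1 o.2) *
        ‖(∑ i ∈ Finset.Icc j (k + 1), c i • G i o) - Φ o‖
        = ∑ a, l a * ∑ o, w a o *
          ‖(∑ i ∈ Finset.Icc (j - 1) k, c (i + 1) • F a i o) - Φ ⟨a, o⟩‖ := by
      rw [Fintype.sum_sigma]
      refine Finset.sum_congr rfl fun a _ => ?_
      rw [Finset.mul_sum]
      refine Finset.sum_congr rfl fun o _ => ?_
      have : ∑ i ∈ Finset.Icc j (k + 1), c i • G i ⟨a, o⟩
          = ∑ i ∈ Finset.Icc (j - 1) k, c (i + 1) • F a i o := by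
        conv_lhs => rw [show j = (j - 1) + 1 by omega, ← Finset.map_add_right_Icc (j-1) k 1,
          Finset.sum_map]
        rfl
      rw [this]
      ring
    rw [split]
    have hc1' : ∑ i ∈ Finset.Icc (j - 1) k, c (i + 1) = 1 := by
      rw [← hc1]
      conv_rhs => rw [show j = (j - 1) + 1 by omega, ← Finset.map_add_right_Icc (j-1) k 1,
        Finset.sum_map]
      rfl
    by_cases h : j ≤ 1
    · have hj : j = 1 := by omega
      subst hj
      simp only [B, le_refl, if_true, LinearMap.mem_range] at hΦ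
      obtain ⟨v, rfl⟩ := hΦ
      simp only [LinearMap.pi_apply, LinearMap.id_coe, id_eq]
      have hlow : ∀ a, ‖x₀ a - v‖ ≤ ∑ o, w a o *
          ‖(∑ i ∈ Finset.Icc (1 - 1) k, c (i + 1) • F a i o) - v‖ := by
        intro a
        have e : x₀ a - v = ∑ o, w a o •
            ((∑ i ∈ Finset.Icc (1 - 1) k, c (i + 1) • F a i o) - v) := by
          simp only [smul_sub, Finset.sum_sub_distrib, ← Finset.sum_smul, hw1, one_smul,
            Finset.smul_sum]
          rw [Finset.sum_comm]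
          simp_rw [smul_comm (w a _) (c _)]
          congr 1
          calc x₀ a = ∑ i ∈ Finset.Icc (1 - 1) k, c (i + 1) • x₀ a := by
                rw [← Finset.sum_smul, hc1', one_smul]
            _ = _ := by
                refine Finset.sum_congr rfl fun i hi => ?_
                rw [← Finset.smul_sum, hmean a i (Finset.mem_Icc.1 hi).2]
        rw [e]
        refine (norm_sum_le _ _).trans (le_of_eq ?_)
        refine Finset.sum_congr rfl fun o _ => ?_
        rw [norm_smul, Real.norm_eq_abs, abs_of_nonneg (hw a o)]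
      have hv : ‖v - X₀‖ ≤ ∑ a, l a * ‖x₀ a - v‖ := by
        have e : X₀ - v = ∑ a, l a • (x₀ a - v) := by
          simp [hX₀, smul_sub, Finset.sum_sub_distrib, ← Finset.sum_smul, hl1]
        rw [norm_sub_rev, e]
        refine (norm_sum_le _ _).trans (le_of_eq ?_)
        refine Finset.sum_congr rfl fun a _ => ?_
        rw [norm_smul, Real.norm_eq_abs, abs_of_nonneg (hl a)]
      have hfar' : ∀ a, 4 * r ≤ ‖x₀ a - v‖ + ‖v - X₀‖ := by
        intro a
        have t1 := norm_sub_le_norm_sub_add_norm_sub (z a) (x₀ a) x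
        have t2 := norm_sub_le_norm_sub_add_norm_sub (x₀ a) X₀ x
        have t3 := norm_sub_le_norm_sub_add_norm_sub (x₀ a) v X₀
        have := hfar a
        have := hx₀ a
        rw [norm_sub_rev] at this
        push_cast at hroot
        linarith
      have hsum' : 4 * r ≤ 2 * ∑ a, l a * ‖x₀ a - v‖ := by
        calc 4 * r = ∑ a, l a * (4 * r) := by
              rw [← Finset.sum_mul, hl1, one_mul]
          _ ≤ ∑ a, l a * (‖x₀ a - v‖ + ‖v - X₀‖) :=
              Finset.sum_le_sum fun a _ => mul_le_mul_of_nonneg_left (hfar' a) (hl a)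
          _ ≤ _ := by
              simp only [mul_add, Finset.sum_add_distrib, ← Finset.sum_mul, hl1, one_mul]
              linarith
      have := Finset.sum_le_sum (s := Finset.univ) fun a _ =>
        mul_le_mul_of_nonneg_left (hlow a) (hl a)
      have : 0 ≤ ∑ a, l a * ‖x₀ a - v‖ :=
        Finset.sum_nonneg fun a _ => mul_nonneg (hl a) (norm_nonneg _)
      linarith
    · simp only [B, h, if_false, Submodule.mem_iInf] at hΦ
      calc r = ∑ a, l a * r := by rw [← Finset.sum_mul, hl1, one_mul]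
        _ ≤ _ := Finset.sum_le_sum fun a _ => mul_le_mul_of_nonneg_left
            (hsep a (j - 1) (by omega) (by omega) _ (hΦ a) _ (fun i => hc (i + 1)) hc1') (hl a)

/-- Long separated sequences from a derivation that never dies out. -/
theorem exists_separated {ε : ℝ} (hε : 0 < ε)
    (h : ∀ N, (derN ε N : Set X).Nonempty) :
    ∃ θ : ℝ, 0 < θ ∧ ∀ k : ℕ, ∃ (Ω : Type) (_ : Fintype Ω) (w : Ω → ℝ) (F : ℕ → Ω → X),
      (∀ o, 0 ≤ w o) ∧ ∑ o, w o = 1 ∧ (∀ i ≤ k, ∀ o, ‖F i o‖ ≤ 1) ∧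
      ∀ j, 1 ≤ j → j ≤ k → ∀ a b : ℕ → ℝ, (∀ i, 0 ≤ a i) → ∑ i ∈ Finset.range j, a i = 1 →
        (∀ i, 0 ≤ b i) → ∑ i ∈ Finset.Icc j k, b i = 1 →
        θ ≤ ∑ o, w o *
          ‖(∑ i ∈ Finset.Icc j k, b i • F i o) - ∑ i ∈ Finset.range j, a i • F i o‖ := by
  refine ⟨ε / 32, by positivity, fun K => ?_⟩
  -- the approximation error per level is chosen once the depth is known
  set η := ε / (8 * (2 * (K : ℝ) + 1)) with hηdef
  have hη : 0 < η := by positivity
  have hK : (2 * (K : ℝ) + 1) * η = ε / 8 := by rw [hηdef]; field_simp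
  have main : ∀ k ≤ K, ∀ x ∈ (derN ε k : Set X), IsBush k x η (ε / 32) := by
    intro k
    induction k with
    | zero =>
        intro _ x hx
        exact isBush_zero (by simpa [derN] using hx) _ _
    | succ k ih =>
        intro hk x hx
        obtain ⟨ι, _, l, z, hl, hl1, hz, hfar, hsum⟩ := exists_combination hη hx
        refine isBush_succ l z hl hl1 (fun i => ?_) hsum fun i => ih (by omega) _ (hz i)
        have hkK : (k : ℝ) + 1 ≤ K := by exact_mod_cast hk
        have : (2 * (k : ℝ) + 1) * η ≤ (2 * (K : ℝ) + 1) * η :=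
          mul_le_mul_of_nonneg_right (by linarith) hη.le
        linarith [hfar i]
  obtain ⟨x, hx⟩ := h K
  obtain ⟨Ω, hΩ, w, F, x₀, A, hw, hw1, hF, -, -, -, -, hmem, hsep⟩ := main K le_rfl x hx
  refine ⟨Ω, hΩ, w, F, hw, hw1, hF, fun j hj hjk a b _ _ hb hb1 => ?_⟩
  have hΦ : (fun o => ∑ i ∈ Finset.range j, a i • F i o) ∈ A j := by
    have : (fun o => ∑ i ∈ Finset.range j, a i • F i o) = ∑ i ∈ Finset.range j, a i • F i := by
      ext o; simp
    rw [this]
    exact Submodule.sum_mem _ fun i hi =>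
      Submodule.smul_mem _ _ (hmem i j (Finset.mem_range.1 hi) hjk)
  exact hsep j hj hjk _ hΦ b hb hb1

end Vale.Agent.P125
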