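import Vale.Agent.P125.Cube

/-!
A labelled reversible chain rarely repeats its label or stalls within few steps.
-/

namespace Vale.Agent.P125

open Finset

variable {S : Type} [Fintype S] [DecidableEq S] {d : ℕ}

/-- The mass of label-alternating paths of `k + 1` moves, by end point and last label. -/
noncomputable def pathMass (A : Fin d → Matrix S S ℝ) : ℕ → S → S → Fin d → ℝ
  | 0, x, y, q => A q x y
  | k + 1, x, y, q => ∑ z, ∑ p, (if p = q then 0 else pathMass A k x z p) * A q z y

variable {A : Fin d → Matrix S S ℝ}

lemma pathMass_nonneg (hA : ∀ q i j, 0 ≤ A q i j) :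
    ∀ k x y q, 0 ≤ pathMass A k x y q := by
  intro k
  induction k with
  | zero => exact fun x y q => hA q x y
  | succ k ih =>
      intro x y q
      refine sum_nonneg fun z _ => sum_nonneg fun p _ => mul_nonneg ?_ (hA q z y)
      split_ifs
      · exact le_rfl
      · exact ih x z p

lemma pathMass_le_pow (hA : ∀ q i j, 0 ≤ A q i j) (P : Matrix S S ℝ)
    (hAP : ∀ i j, ∑ q, A q i j ≤ P i j) :
    ∀ k x y, ∑ q, pathMass A k x y q ≤ (P ^ (k + 1)) x y := by
  intro k
  induction k with
  | zero => intro x y; simpa [pathMass] using hAP x y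
  | succ k ih =>
      intro x y
      calc ∑ q, pathMass A (k + 1) x y q
          ≤ ∑ q, ∑ z, (∑ p, pathMass A k x z p) * A q z y := by
            refine sum_le_sum fun q _ => sum_le_sum fun z _ => ?_
            rw [sum_mul]
            refine sum_le_sum fun p _ => mul_le_mul_of_nonneg_right ?_ (hA q z y)
            split_ifs
            · exact pathMass_nonneg hA k x z p
            · exact le_rfl
        _ = ∑ z, (∑ p, pathMass A k x z p) * ∑ q, A q z y := by
            rw [sum_comm]; simp only [mul_sum]
        _ ≤ ∑ z, (P ^ (k + 1)) x z * P z y := by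
            refine sum_le_sum fun z _ => mul_le_mul (ih x z) (hAP z y)
              (sum_nonneg fun q _ => hA q z y) ?_
            exact (sum_nonneg fun p _ => pathMass_nonneg hA k x z p).trans (ih x z)
        _ = (P ^ (k + 1 + 1)) x y := by rw [pow_succ _ (k + 1), Matrix.mul_apply]

lemma exists_path (hA : ∀ q i j, 0 ≤ A q i j) :
    ∀ k x y q, 0 < pathMass A k x y q → ∃ (s : ℕ → S) (l : ℕ → Fin d),
      s 0 = x ∧ s (k + 1) = y ∧ l k = q ∧ (∀ j ≤ k, 0 < A (l j) (s j) (s (j + 1))) ∧
      ∀ j < k, l (j + 1) ≠ l j := by
  intro k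
  induction k with
  | zero =>
      intro x y q h
      refine ⟨fun j => if j = 0 then x else y, fun _ => q, by simp, by simp, rfl, ?_, by omega⟩
      intro j hj
      obtain rfl : j = 0 := by omega
      simpa [pathMass] using h
  | succ k ih =>
      intro x y q h
      obtain ⟨z, -, hz⟩ := exists_ne_zero_of_sum_ne_zero h.ne'
      obtain ⟨p, -, hp⟩ := exists_ne_zero_of_sum_ne_zero hz
      have hpq : p ≠ q := fun e => by simp [e] at hp
      rw [if_neg hpq] at hp
      obtain ⟨s, l, hs0, hs1, hl, hpos, hne⟩ := ih x z p
        ((pathMass_nonneg hA k x z p).lt_of_ne (left_ne_zero_of_mul hp).symm)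
      refine ⟨fun j => if j = k + 1 + 1 then y else s j, fun j => if j = k + 1 then q else l j,
        by simp [hs0], by simp, by simp, fun j hj => ?_, fun j hj => ?_⟩
      · rcases eq_or_lt_of_le hj with rfl | hj'
        · simp only [hs1, if_true, show k + 1 ≠ k + 1 + 1 by omega, if_false]
          exact (hA q z y).lt_of_ne (right_ne_zero_of_mul hp).symm
        · simp only [show j ≠ k + 1 + 1 by omega, show j ≠ k + 1 by omega,
            show j + 1 ≠ k + 1 + 1 by omega, if_false]
          exact hpos j (by omega)
      · rcases eq_or_lt_of_le (Nat.le_of_lt_succ hj) with rfl | hj'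
        · simpa [hl] using hpq.symm
        · simp only [show j ≠ k + 1 by omega, show j + 1 ≠ k + 1 by omega, if_false]
          exact hne j hj'

/-- If every label-alternating path of length `t` moves `g` by at least `L`, so does the chain on
average, up to the chance of stalling or of repeating a label. -/
theorem mean_of_paths (π : S → ℝ) (P : Matrix S S ℝ) (hπ : ∀ i, 0 ≤ π i)
    (hP : ∀ i j, 0 ≤ P i j) (hP1 : ∀ i, ∑ j, P i j = 1) (hπ1 : ∑ i, π i = 1)
    (hrev : ∀ i j, π i * P i j = π j * P j i) (hA : ∀ q i j, 0 ≤ A q i j)
    (hAP : ∀ i j, ∑ q, A q i j ≤ P i j) {δ η L : ℝ} (hδ0 : 0 ≤ δ)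
    (hδ : ∀ q i, ∑ j, A q i j ≤ δ) (hη : 1 - η ≤ ∑ i, π i * ∑ q, ∑ j, A q i j)
    {g : S → S → ℝ} (hg : ∀ i j, 0 ≤ g i j) (hL : 0 ≤ L) {t : ℕ} (ht : 1 ≤ t)
    (hpath : ∀ (s : ℕ → S) (l : ℕ → Fin d), (∀ j < t, 0 < A (l j) (s j) (s (j + 1))) →
      (∀ j, j + 1 < t → l (j + 1) ≠ l j) → L ≤ g (s 0) (s t)) :
    L * (1 - t * (δ + η)) ≤ ∑ i, ∑ j, π i * (P ^ t) i j * g i j := by
  obtain ⟨k, rfl⟩ : ∃ k, t = k + 1 := ⟨t - 1, by omega⟩
  let out : S → ℝ := fun z => ∑ q, ∑ j, A q z j
  have hout : ∀ z, out z ≤ 1 := fun z => by
    calc out z = ∑ j, ∑ q, A q z j := sum_comm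
      _ ≤ ∑ j, P z j := sum_le_sum fun j _ => hAP z j
      _ = 1 := hP1 z
  have hpow : ∀ m z, ∑ x, π x * (P ^ m) x z = π z := by
    intro m
    induction m with
    | zero => intro z; simp [Matrix.one_apply]
    | succ m ih =>
        intro z
        simp only [pow_succ, Matrix.mul_apply, mul_sum, ← mul_assoc]
        rw [sum_comm]
        simp only [← sum_mul, ih]
        rw [sum_congr rfl fun i _ => hrev i z, ← mul_sum, hP1, mul_one]
  have hmass : ∀ m : ℕ, 1 - ((m : ℝ) + 1) * (δ + η)
      ≤ ∑ x, π x * ∑ y, ∑ q, pathMass A m x y q := by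
    intro m
    induction m with
    | zero =>
        have : ∀ x, ∑ y, ∑ q, pathMass A 0 x y q = out x := fun x => by
          simp only [pathMass, out]; exact sum_comm
        simp only [this, Nat.cast_zero, zero_add, one_mul]
        linarith
    | succ m ih =>
        obtain ⟨hQ, hQ1⟩ := stochastic_pow hP hP1 (m + 1)
        have key : ∀ x, ∑ y, ∑ q, pathMass A m x y q - δ - ∑ z, (P ^ (m + 1)) x z * (1 - out z)
            ≤ ∑ y, ∑ q, pathMass A (m + 1) x y q := by
          intro x
          have e : ∑ y, ∑ q, pathMass A (m + 1) x y q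
              = ∑ z, ∑ p, pathMass A m x z p * (out z - ∑ j, A p z j) := by
            simp only [pathMass]
            calc ∑ y, ∑ q, ∑ z, ∑ p, (if p = q then 0 else pathMass A m x z p) * A q z y
                = ∑ z, ∑ p, ∑ q, (if p = q then 0 else pathMass A m x z p) * ∑ y, A q z y := by
                  simp only [mul_sum]
                  rw [sum_comm]
                  rw [sum_congr rfl fun q _ => sum_comm (s := (univ : Finset S))]
                  rw [sum_comm]
                  refine sum_congr rfl fun z _ => ?_
                  rw [sum_congr rfl fun q _ => sum_comm (s := (univ : Finset S)), sum_comm]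
              _ = _ := by
                  refine sum_congr rfl fun z _ => sum_congr rfl fun p _ => ?_
                  have h1 : ∀ q, (if p = q then 0 else pathMass A m x z p) * ∑ y, A q z y
                      = pathMass A m x z p * ∑ y, A q z y
                        - (if p = q then pathMass A m x z p * ∑ y, A q z y else 0) := by
                    intro q; split_ifs <;> ring
                  rw [sum_congr rfl fun q _ => h1 q, sum_sub_distrib, ← mul_sum, sum_ite_eq,
                    if_pos (mem_univ p)]
                  ring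
          rw [e]
          have h2 : ∀ z, ∑ p, pathMass A m x z p * (1 - δ) - (P ^ (m + 1)) x z * (1 - out z)
              ≤ ∑ p, pathMass A m x z p * (out z - ∑ j, A p z j) := by
            intro z
            have h3 := mul_le_mul_of_nonneg_right (pathMass_le_pow hA P hAP m x z)
              (sub_nonneg.2 (hout z))
            rw [sum_mul] at h3
            have h4 : ∑ p, pathMass A m x z p * (∑ j, A p z j) ≤ ∑ p, pathMass A m x z p * δ :=
              sum_le_sum fun p _ =>
                mul_le_mul_of_nonneg_left (hδ p z) (pathMass_nonneg hA m x z p)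
            simp only [mul_sub, mul_one, sum_sub_distrib] at h3 ⊢
            linarith
          refine le_trans ?_ (sum_le_sum fun z _ => h2 z)
          have h5 : ∑ y, ∑ q, pathMass A m x y q ≤ 1 := by
            refine (sum_le_sum fun y _ => pathMass_le_pow hA P hAP m x y).trans ?_
            rw [hQ1 x]
          simp only [sum_sub_distrib, ← sum_mul]
          nlinarith
        have h6 : ∑ x, π x * ∑ z, (P ^ (m + 1)) x z * (1 - out z) ≤ η := by
          simp only [mul_sum, ← mul_assoc]
          rw [sum_comm]
          simp only [← sum_mul, hpow]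
          simp only [mul_sub, mul_one, sum_sub_distrib, hπ1, out]
          linarith
        calc 1 - (((m + 1 : ℕ) : ℝ) + 1) * (δ + η)
            = (1 - ((m : ℝ) + 1) * (δ + η)) - δ - η := by push_cast; ring
          _ ≤ (∑ x, π x * ∑ y, ∑ q, pathMass A m x y q) - (∑ x, π x * δ)
              - ∑ x, π x * ∑ z, (P ^ (m + 1)) x z * (1 - out z) := by
            rw [← sum_mul, hπ1, one_mul]; linarith
          _ = ∑ x, π x * (∑ y, ∑ q, pathMass A m x y q - δ
              - ∑ z, (P ^ (m + 1)) x z * (1 - out z)) := by
            simp only [mul_sub, sum_sub_distrib]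
          _ ≤ _ := sum_le_sum fun x _ => mul_le_mul_of_nonneg_left (key x) (hπ x)
  calc L * (1 - ((k + 1 : ℕ) : ℝ) * (δ + η))
      ≤ L * ∑ x, π x * ∑ y, ∑ q, pathMass A k x y q := by
        refine mul_le_mul_of_nonneg_left ?_ hL
        push_cast
        exact hmass k
    _ = ∑ x, ∑ y, π x * ∑ q, L * pathMass A k x y q := by
        simp only [mul_sum]
        exact sum_congr rfl fun x _ => sum_congr rfl fun y _ => sum_congr rfl fun q _ => by ring
    _ ≤ _ := by
        refine sum_le_sum fun x _ => sum_le_sum fun y _ => ?_
        rw [mul_assoc]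
        refine mul_le_mul_of_nonneg_left ?_ (hπ x)
        calc ∑ q, L * pathMass A k x y q ≤ ∑ q, pathMass A k x y q * g x y := by
              refine sum_le_sum fun q _ => ?_
              rcases (pathMass_nonneg hA k x y q).eq_or_lt with h0 | h0
              · simp [← h0]
              · obtain ⟨s, l, hs0, hs1, -, hpos, hne⟩ := exists_path hA k x y q h0
                rw [mul_comm]
                refine mul_le_mul_of_nonneg_left ?_ h0.le
                have := hpath s l (fun j hj => hpos j (by omega)) fun j hj => hne j (by omega)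
                rwa [hs0, hs1] at this
          _ ≤ _ := by
              rw [← sum_mul]
              exact mul_le_mul_of_nonneg_right (pathMass_le_pow hA P hAP k x y) (hg x y)

end Vale.Agent.P125
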