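import Vale.Agent.P125.Runs
import Vale.Agent.P125.Paths

/-!
The reversible chain on spread tuples with counters contradicts nontrivial Markov type.
-/

namespace Vale.Agent.P125

open Finset

/-- The role shift: reading a middle from a low or from a high role. -/
def shiftOf (b : Bool) : ℕ := if b then 1 else 0

/-- The position of the `i`-th index of slot `q`, with slots interleaved group by group. -/
def slotPos (d q i : ℕ) : ℕ := 2 * d * (i / 2) + 2 * q + i % 2

lemma slotPos_lt {d R q i : ℕ} (hq : q < d) (hi : i ≤ 2 * R + 1) :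
    slotPos d q i < 2 * d * (R + 1) := by
  unfold slotPos
  have h1 : 2 * d * (i / 2) ≤ 2 * d * R := Nat.mul_le_mul_left _ (by omega)
  rw [Nat.mul_add, Nat.mul_one]
  omega

lemma slotPos_succ {d q i : ℕ} (hq : q < d) : slotPos d q i < slotPos d q (i + 1) := by
  unfold slotPos
  rcases Nat.mod_two_eq_zero_or_one i with h | h
  · rw [show (i + 1) / 2 = i / 2 by omega, show (i + 1) % 2 = 1 by omega, h]
    omega
  · rw [show (i + 1) / 2 = i / 2 + 1 by omega, show (i + 1) % 2 = 0 by omega, h, Nat.mul_add,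
      Nat.mul_one]
    omega

lemma slotPos_mono {d q : ℕ} (hq : q < d) : StrictMono (slotPos d q) :=
  strictMono_nat_of_lt_succ fun _ => slotPos_succ hq

/-- The comparison that orients the runs. -/
lemma slotPos_link {d q q' i i' : ℕ} (hq : q < d) (hq' : q' < d) 
    (hi : (q' < q ∧ i' = i + 1) ∨ (q < q' ∧ i' + 1 = i)) :
    (i % 2 = 0 → slotPos d q' i' < slotPos d q i) ∧
      (i % 2 = 1 → slotPos d q i < slotPos d q' i') := by
  unfold slotPos
  rcases hi with ⟨h, rfl⟩ | ⟨h, rfl⟩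
  · constructor <;> intro hp
    · rw [show (i + 1) / 2 = i / 2 by omega, show (i + 1) % 2 = 1 by omega, hp]
      omega
    · rw [show (i + 1) / 2 = i / 2 + 1 by omega, show (i + 1) % 2 = 0 by omega, hp, Nat.mul_add,
        Nat.mul_one]
      omega
  · constructor <;> intro hp
    · rw [show (i' + 1) / 2 = i' / 2 + 1 by omega, show i' % 2 = 1 by omega, hp, Nat.mul_add,
        Nat.mul_one]
      omega
    · rw [show (i' + 1) / 2 = i' / 2 by omega, show i' % 2 = 0 by omega, hp]
      omega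

/-- The head offsets along a path. -/
def headOffset (t : ℕ) (l : ℕ → ℕ) (b : ℕ → Bool) : ℕ → ℤ
  | 0 => 2 * t + 2
  | j + 1 => headOffset t l b j + (if l (j + 1) < l j then 1 else -1)
      - (if b (j + 1) then 1 else -1)

lemma headOffset_spec (t : ℕ) (l : ℕ → ℕ) (b : ℕ → Bool) : ∀ j,
    2 * (t : ℤ) + 2 - 2 * j ≤ headOffset t l b j ∧ headOffset t l b j ≤ 2 * (t : ℤ) + 2 + 2 * j ∧
      headOffset t l b j % 2 = 0 := by
  intro j
  induction j with
  | zero => simp [headOffset]
  | succ j ih =>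
      simp only [headOffset]
      obtain ⟨h1, h2, h3⟩ := ih
      split_ifs <;> push_cast <;> omega

lemma sgn_offset (b : Bool) {h : ℤ} (h2 : 2 ≤ h) (he : h % 2 = 0) :
    sgn b * (-1 : ℝ) ^ (h - (shiftOf (!b) : ℤ)).toNat = 1 := by
  cases b
  · have : (h - (shiftOf (!false) : ℤ)).toNat % 2 = 1 := by simp [shiftOf]; omega
    rw [(Nat.odd_iff.2 this).neg_one_pow]
    simp [sgn]
  · have : (h - (shiftOf (!true) : ℤ)).toNat % 2 = 0 := by simp [shiftOf]; omega
    rw [(Nat.even_iff.2 this).neg_one_pow]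
    simp [sgn]

lemma norm_path_sum {N : Seminorm ℝ Vec} {p K θ : ℝ} (hN : IsModel N p K θ) {t d R n : ℕ}
    (ht : 0 < t) (hR : 2 * t ≤ R) (hn : n = 2 * d * (R + 1)) (Y : ℕ → ℕ → ℕ)
    (hY : ∀ j ≤ t, ∀ a a', a < a' → a' < n → Y j a < Y j a') (l : ℕ → ℕ) (hl : ∀ j < t, l j < d)
    (hne : ∀ j, j + 1 < t → l (j + 1) ≠ l j) (b : ℕ → Bool) (x : ℕ → ℕ → ℕ)
    (htail : ∀ j < t, ∀ k < 2 * R, x j k = Y j (slotPos d (l j) (k + shiftOf (b j))))
    (hhead : ∀ j < t, ∀ k < 2 * R, x j k = Y (j + 1) (slotPos d (l j) (k + shiftOf (!b j)))) :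
    (t : ℝ) * N (alt R) - 8 * (t : ℝ) ^ 2 ≤ N (∑ j ∈ range t, sgn (b j) • altAt R (x j)) := by
  have hs1 : ∀ c : Bool, shiftOf c ≤ 1 := fun c => by cases c <;> simp [shiftOf]
  refine hN.norm_signed_sum ht hR b x
    (fun j => (headOffset t l b j - (shiftOf (!b j) : ℤ)).toNat) (fun j hj a a' ha ha' => ?_)
    (fun j hj => ?_) (fun j hj => ?_) fun j hj r hr => ?_
  · rw [htail j hj a (by omega), htail j hj a' ha']
    have := hs1 (b j)
    exact hY j hj.le _ _ (slotPos_mono (hl j hj) (by omega))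
      (hn ▸ slotPos_lt (hl j hj) (by omega))
  · have := headOffset_spec t l b j
    omega
  · obtain ⟨h1, h2, h3⟩ := headOffset_spec t l b j
    exact sgn_offset _ (by omega) h3
  · obtain ⟨h1, h2, h3⟩ := headOffset_spec t l b j
    obtain ⟨h1', h2', h3'⟩ := headOffset_spec t l b (j + 1)
    set c := (headOffset t l b j - (shiftOf (!b j) : ℤ)).toNat with hc
    set c' := (headOffset t l b (j + 1) - (shiftOf (!b (j + 1)) : ℤ)).toNat with hc'
    have hrec : headOffset t l b (j + 1) = headOffset t l b j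
        + (if l (j + 1) < l j then 1 else -1) - (if b (j + 1) then 1 else -1) := rfl
    have hA := hs1 (!b j)
    have hb' : (shiftOf (b (j + 1)) = 1 ∧ shiftOf (!b (j + 1)) = 0 ∧ b (j + 1) = true) ∨
        (shiftOf (b (j + 1)) = 0 ∧ shiftOf (!b (j + 1)) = 1 ∧ b (j + 1) = false) := by
      cases b (j + 1) <;> simp [shiftOf]
    have hkk : r + c < 2 * R ∧ r + c' < 2 * R := by omega
    rw [htail (j + 1) hj _ hkk.2, hhead j (by omega) _ hkk.1]
    set i := r + c + shiftOf (!b j) with hi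
    set i' := r + c' + shiftOf (b (j + 1)) with hi'
    have hrel : (l (j + 1) < l j ∧ i' = i + 1) ∨ (l j < l (j + 1) ∧ i' + 1 = i) := by
      have := hne j hj
      rcases hb' with ⟨e1, e2, e3⟩ | ⟨e1, e2, e3⟩ <;> simp only [e3, if_true] at hrec <;>
        rcases lt_or_gt_of_ne this with hlt | hlt
      all_goals first
        | (simp [hlt] at hrec; left; refine ⟨hlt, ?_⟩; omega)
        | (simp [not_lt.2 hlt.le] at hrec; right; refine ⟨hlt, ?_⟩; omega)
    have hlink := slotPos_link (hl j (by omega)) (hl (j + 1) hj) hrel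
    have hbound : slotPos d (l j) i < n ∧ slotPos d (l (j + 1)) i' < n :=
      ⟨hn ▸ slotPos_lt (hl j (by omega)) (by omega), hn ▸ slotPos_lt (hl (j + 1) hj) (by omega)⟩
    have hpar : i % 2 = r % 2 := by omega
    split_ifs with he
    · exact hY (j + 1) hj.le _ _ (hlink.1 (by rw [hpar]; exact Nat.even_iff.1 he)) hbound.1
    · exact hY (j + 1) hj.le _ _ (hlink.2 (by rw [hpar]; exact Nat.not_even_iff.1 he)) hbound.2

section counters

variable {M : Type} [Fintype M] [DecidableEq M] {Λ : ℕ}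

/-- One unit move of the counter of `m`: up if `b`, down otherwise. -/
def Step (b : Bool) (m : M) (θ θ' : M → Fin Λ) : Prop :=
  (∀ m', m' ≠ m → θ' m' = θ m') ∧
    if b then (θ' m).val = (θ m).val + 1 else (θ m).val = (θ' m).val + 1

instance (b : Bool) (m : M) (θ θ' : M → Fin Λ) : Decidable (Step b m θ θ') := by
  unfold Step; infer_instance

omit [Fintype M] [DecidableEq M] in
lemma step_symm (b : Bool) (m : M) (θ θ' : M → Fin Λ) : Step b m θ θ' ↔ Step (!b) m θ' θ := by
  unfold Step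
  cases b <;> simp <;> intro _ <;> constructor <;> exact fun h m' hm => (h m' hm).symm

omit [Fintype M] in
lemma step_unique (b : Bool) (m : M) (θ θ' θ'' : M → Fin Λ) (h' : Step b m θ θ')
    (h'' : Step b m θ θ'') : θ' = θ'' := by
  funext m'
  by_cases hm : m' = m
  · subst hm
    apply Fin.ext
    have e1 := h'.2
    have e2 := h''.2
    cases b <;> simp only [Bool.false_eq_true, if_true, if_false] at e1 e2 <;> omega
  · rw [h'.1 m' hm, h''.1 m' hm]

lemma sum_step_le (b : Bool) (m : M) (θ : M → Fin Λ) :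
    ∑ θ', (if Step b m θ θ' then (1 : ℝ) else 0) ≤ 1 := by
  by_cases h : ∃ θ', Step b m θ θ'
  · obtain ⟨θ₀, hθ₀⟩ := h
    rw [sum_eq_single θ₀ (fun θ' _ hne => if_neg fun hs => hne (step_unique b m θ θ' θ₀ hs hθ₀))
      (by simp), if_pos hθ₀]
  · push Not at h
    simp [h]

/-- A share `1 - 1/Λ` of the counter values can move in a given direction. -/
lemma mean_step (b : Bool) (m : M) (hΛ : 0 < Λ) :
    (1 - (Λ : ℝ)⁻¹) * (Fintype.card (M → Fin Λ) : ℕ)
      ≤ ∑ θ : M → Fin Λ, ∑ θ' : M → Fin Λ, if Step b m θ θ' then (1 : ℝ) else 0 := by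
  let last : Fin Λ := if b then ⟨Λ - 1, by omega⟩ else ⟨0, hΛ⟩
  have hmove : ∀ θ : M → Fin Λ, θ m ≠ last →
      1 ≤ ∑ θ', if Step b m θ θ' then (1 : ℝ) else 0 := by
    intro θ hθ
    have hv : (θ m).val ≠ last.val := fun e => hθ (Fin.ext e)
    have hlt := (θ m).isLt
    obtain ⟨θ', hθ'⟩ : ∃ θ', Step b m θ θ' := by
      cases b
      · refine ⟨Function.update θ m ⟨(θ m).val - 1, by omega⟩,
          fun m' hm => Function.update_of_ne hm _ _, ?_⟩
        simp [last] at hv ⊢
        omega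
      · simp [last] at hv
        refine ⟨Function.update θ m ⟨(θ m).val + 1, by omega⟩,
          fun m' hm => Function.update_of_ne hm _ _, ?_⟩
        simp
    refine le_trans ?_ (single_le_sum (fun θ'' _ => by split_ifs <;> norm_num) (mem_univ θ'))
    rw [if_pos hθ']
  refine le_trans ?_ (sum_le_sum (f := fun θ : M → Fin Λ => if θ m = last then (0 : ℝ) else 1)
    fun θ _ => ?_)
  · rw [← Equiv.sum_comp (Equiv.funSplitAt m (Fin Λ)).symm, Fintype.sum_prod_type]
    simp only [Equiv.funSplitAt_symm_apply, dite_true]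
    rw [Fintype.card_congr (Equiv.funSplitAt m (Fin Λ)), Fintype.card_prod, Fintype.card_fin,
      sum_comm]
    refine le_of_eq ?_
    have : ∀ u : { j // j ≠ m } → Fin Λ, ∑ a : Fin Λ, (if a = last then (0 : ℝ) else 1)
        = (Λ : ℝ) - 1 := fun _ => by
      rw [sum_ite, sum_const_zero, zero_add, sum_const, filter_ne', card_erase_of_mem (mem_univ _),
        card_univ, Fintype.card_fin, nsmul_one, Nat.cast_sub hΛ, Nat.cast_one]
    rw [sum_congr rfl fun u _ => this u, sum_const, card_univ, nsmul_eq_mul]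
    push_cast
    field_simp
  · by_cases hθ : θ m = last
    · rw [if_pos hθ]
      exact sum_nonneg fun θ'' _ => by split_ifs <;> norm_num
    · rw [if_neg hθ]
      exact hmove θ hθ

end counters

/-- No model seminorm has nontrivial Markov type and positive separation. -/
theorem IsModel.contradiction {N : Seminorm ℝ Vec} {p K θ : ℝ} (hN : IsModel N p K θ) (hp : 1 < p)
    (hK : 0 ≤ K) (hθ : 0 < θ) : False := by
  classical
  obtain ⟨t, ht, hlarge⟩ := exists_large_time hp ((3 * K) ^ p)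
  obtain ⟨R, hR0⟩ := hN.alt_unbounded hp hK hθ (24 * t)
  set ν := N (alt R) with hν
  have htr : (1 : ℝ) ≤ t := by exact_mod_cast ht
  have hR : 2 * t ≤ R := by
    have h1 : (2 * t : ℝ) ≤ R := by
      have := hN.norm_alt_le R
      linarith
    exact_mod_cast h1
  obtain ⟨d, hd⟩ : ∃ d, d = 8 * t := ⟨_, rfl⟩
  set n := 2 * d * (R + 1) with hn
  obtain ⟨Λ, hΛdef⟩ : ∃ Λ, Λ = 8 * t := ⟨_, rfl⟩
  have hΛ : 0 < Λ := by omega
  obtain ⟨W, Γ, hΓ, v, Y, hv, hv1, hY, hYW, hclose⟩ :=
    exists_spreadLaw (2 * R) n (1 / (8 * (t : ℝ))) (by positivity)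
  -- middles
  let idx : Fin d → Bool → Fin (2 * R) → Fin n := fun q b k =>
    ⟨slotPos d q (k + shiftOf b),
      slotPos_lt q.isLt (by have := k.isLt; cases b <;> simp [shiftOf] <;> omega)⟩
  have hidx : ∀ q b, StrictMono (idx q b) := fun q b a a' h =>
    slotPos_mono q.isLt (Nat.add_lt_add_right h _)
  let mid : Fin d → Bool → Γ → Fin (2 * R) → Fin W := fun q b γ k =>
    ⟨Y γ (idx q b k), hYW _ _⟩
  let μ : Fin d → Bool → (Fin (2 * R) → Fin W) → ℝ := fun q b m =>
    ∑ γ, if mid q b γ = m then v γ else 0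
  have hμ0 : ∀ q b m, 0 ≤ μ q b m := fun q b m =>
    sum_nonneg fun γ _ => by split_ifs <;> simp [hv]
  have hμsum : ∀ q b (F : (Fin (2 * R) → Fin W) → ℝ),
      ∑ m, F m * μ q b m = ∑ γ, v γ * F (mid q b γ) := by
    intro q b F
    simp only [μ, mul_sum, mul_ite, mul_zero]
    rw [sum_comm]
    exact sum_congr rfl fun γ _ => by rw [sum_ite_eq, if_pos (mem_univ _), mul_comm]
  have hmin : ∀ q b, 1 - 1 / (8 * (t : ℝ))
      ≤ ∑ m, μ q b m * μ q (!b) m / max (μ q b m) (μ q (!b) m) := by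
    intro q b
    let h : (Fin (2 * R) → ℕ) → ℝ := fun z => if hz : ∀ k, z k < W then
      (if μ q (!b) (fun k => ⟨z k, hz k⟩) ≤ μ q b (fun k => ⟨z k, hz k⟩) then 1 else -1) else 0
    have hh : ∀ z, |h z| ≤ 1 := fun z => by simp only [h]; split_ifs <;> simp
    let s : (Fin (2 * R) → Fin W) → ℝ := fun m => if μ q (!b) m ≤ μ q b m then 1 else -1
    have hhs : ∀ c γ, h (Y γ ∘ idx q c) = s (mid q c γ) := by
      intro c γ
      have hall : ∀ k, (Y γ ∘ idx q c) k < W := fun k => hYW _ _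
      simp only [h, dif_pos hall]
      rfl
    have hc := hclose (idx q b) (idx q (!b)) (hidx q b) (hidx q (!b)) h hh
    simp only [hhs, ← hμsum] at hc
    have hone : ∀ c, ∑ m, μ q c m = 1 := fun c => by
      simpa [hv1] using hμsum q c fun _ => 1
    have key : ∀ m, μ q b m * μ q (!b) m / max (μ q b m) (μ q (!b) m)
        = (μ q b m + μ q (!b) m) / 2 - (s m * μ q b m - s m * μ q (!b) m) / 2 := by
      intro m
      simp only [s]
      split_ifs with hle
      · rw [max_eq_left hle]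
        rcases (hμ0 q b m).eq_or_lt with h0 | h0
        · have h1 : μ q (!b) m = 0 := le_antisymm (h0 ▸ hle) (hμ0 _ _ _)
          simp [← h0, h1]
        · field_simp; ring
      · have hlt := not_le.1 hle
        rw [max_eq_right hlt.le]
        have h0 : 0 < μ q (!b) m := (hμ0 q b m).trans_lt hlt
        field_simp; ring
    rw [sum_congr rfl fun m _ => key m, sum_sub_distrib, ← sum_div, ← sum_div, sum_add_distrib,
      hone, hone, sum_sub_distrib]
    have := (abs_le.1 hc).2
    have h8 : (0 : ℝ) ≤ 1 / (8 * (t : ℝ)) := by positivity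
    linarith
  -- states and moves
  let Θ := (Fin (2 * R) → Fin W) → Fin Λ
  let base : Fin d → Bool → Γ × Θ → Γ × Θ → ℝ := fun q b s s' =>
    if mid q b s.1 = mid q (!b) s'.1 ∧ Step b (mid q b s.1) s.2 s'.2 then
      v s'.1 / max (μ q b (mid q b s.1)) (μ q (!b) (mid q b s.1)) else 0
  let A : Fin d → Matrix (Γ × Θ) (Γ × Θ) ℝ := fun q =>
    Matrix.of fun s s' => (2 * (d : ℝ))⁻¹ * (base q true s s' + base q false s s')
  have hbase0 : ∀ q b s s', 0 ≤ base q b s s' := fun q b s s' => by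
    simp only [base]
    split_ifs
    · exact div_nonneg (hv _) ((hμ0 _ _ _).trans (le_max_left _ _))
    · exact le_rfl
  have hA0 : ∀ q s s', 0 ≤ A q s s' := fun q s s' =>
    mul_nonneg (by positivity) (add_nonneg (hbase0 _ _ _ _) (hbase0 _ _ _ _))
  have hrow : ∀ q b s, ∑ s', base q b s s'
      = μ q (!b) (mid q b s.1) / max (μ q b (mid q b s.1)) (μ q (!b) (mid q b s.1))
        * ∑ θ', if Step b (mid q b s.1) s.2 θ' then (1 : ℝ) else 0 := by
    intro q b s
    have hμdef : μ q (!b) (mid q b s.1)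
        = ∑ γ', if mid q (!b) γ' = mid q b s.1 then v γ' else 0 := rfl
    obtain ⟨D, hD⟩ : ∃ D, D = max (μ q b (mid q b s.1)) (μ q (!b) (mid q b s.1)) := ⟨_, rfl⟩
    rw [← hD, Fintype.sum_prod_type, hμdef, sum_div, sum_mul]
    refine sum_congr rfl fun γ' _ => ?_
    rw [mul_sum]
    refine sum_congr rfl fun θ' _ => ?_
    simp only [base, ← hD]
    by_cases h1 : mid q (!b) γ' = mid q b s.1
    · simp [h1]
    · simp [h1, Ne.symm h1]
  have hrow1 : ∀ q b s, ∑ s', base q b s s' ≤ 1 := by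
    intro q b s
    rw [hrow]
    refine mul_le_one₀ ?_ (sum_nonneg fun θ' _ => by split_ifs <;> norm_num) (sum_step_le _ _ _)
    exact div_le_one_of_le₀ (le_max_right _ _) ((hμ0 _ _ _).trans (le_max_left _ _))
  have hdr : (0 : ℝ) < d := by
    have : 0 < d := by omega
    exact_mod_cast this
  have hArow : ∀ q s, ∑ s', A q s s' ≤ 1 / (d : ℝ) := by
    intro q s
    simp only [A, Matrix.of_apply, ← mul_sum, sum_add_distrib]
    calc (2 * (d : ℝ))⁻¹ * (∑ s', base q true s s' + ∑ s', base q false s s')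
        ≤ (2 * (d : ℝ))⁻¹ * (1 + 1) :=
          mul_le_mul_of_nonneg_left (add_le_add (hrow1 _ _ _) (hrow1 _ _ _)) (by positivity)
      _ = 1 / (d : ℝ) := by field_simp; ring
  let stay : Γ × Θ → ℝ := fun s => 1 - ∑ q, ∑ s', A q s s'
  have hstay : ∀ s, 0 ≤ stay s := by
    intro s
    have : ∑ q, ∑ s', A q s s' ≤ 1 := by
      refine (sum_le_sum fun q _ => hArow q s).trans ?_
      rw [sum_const, card_univ, Fintype.card_fin, nsmul_eq_mul]
      field_simp
      exact le_rfl
    simp only [stay]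
    linarith
  let P : Matrix (Γ × Θ) (Γ × Θ) ℝ :=
    Matrix.of fun s s' => (if s = s' then stay s else 0) + ∑ q, A q s s'
  have hAP : ∀ s s', ∑ q, A q s s' ≤ P s s' := fun s s' => by
    simp only [P, Matrix.of_apply, le_add_iff_nonneg_left]
    split_ifs <;> simp [hstay]
  have hP0 : ∀ s s', 0 ≤ P s s' := fun s s' =>
    (sum_nonneg fun q _ => hA0 q s s').trans (hAP s s')
  have hP1 : ∀ s, ∑ s', P s s' = 1 := by
    intro s
    simp only [P, Matrix.of_apply, sum_add_distrib]
    rw [sum_eq_single s (fun x _ hx => if_neg (Ne.symm hx)) (by simp), if_pos rfl, sum_comm]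
    simp only [stay, sub_add_cancel]
  let c : ℝ := ((Fintype.card Θ : ℕ) : ℝ)⁻¹
  have hc0 : 0 ≤ c := by positivity
  have hΘ : (Fintype.card Θ : ℕ) ≠ 0 := by
    have : Nonempty Θ := ⟨fun _ => ⟨0, hΛ⟩⟩
    exact Fintype.card_ne_zero
  let π : Γ × Θ → ℝ := fun s => v s.1 * c
  have hπ0 : ∀ s, 0 ≤ π s := fun s => mul_nonneg (hv _) hc0
  have hπ1 : ∑ s, π s = 1 := by
    rw [Fintype.sum_prod_type]
    simp only [π, c, sum_const, card_univ, nsmul_eq_mul]
    rw [← hv1]
    refine sum_congr rfl fun γ _ => ?_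
    field_simp
  have hbsymm : ∀ q b s s', π s * base q b s s' = π s' * base q (!b) s' s := by
    intro q b s s'
    simp only [base, Bool.not_not, π]
    by_cases h1 : mid q b s.1 = mid q (!b) s'.1
    · simp only [h1, true_and, ← step_symm]
      split_ifs
      · rw [max_comm]; ring
      · simp
    · simp [h1, Ne.symm h1]
  have hrev : ∀ s s', π s * P s s' = π s' * P s' s := by
    intro s s'
    simp only [P, Matrix.of_apply, mul_add, mul_sum]
    congr 1
    · by_cases h : s = s'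
      · subst h; rfl
      · simp [h, Ne.symm h]
    · refine sum_congr rfl fun q _ => ?_
      have e1 := hbsymm q true s s'
      have e2 := hbsymm q false s s'
      simp only [Bool.not_true, Bool.not_false] at e1 e2
      simp only [A, Matrix.of_apply]
      linear_combination (2 * (d : ℝ))⁻¹ * e1 + (2 * (d : ℝ))⁻¹ * e2
  -- the chance to move
  have hmove : 1 - (1 / (8 * (t : ℝ)) + (Λ : ℝ)⁻¹) ≤ ∑ s, π s * ∑ q, ∑ s', A q s s' := by
    have hone : ∀ q b, 1 - (1 / (8 * (t : ℝ)) + (Λ : ℝ)⁻¹) ≤ ∑ s, π s * ∑ s', base q b s s' := by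
      intro q b
      have hΛ1 : (0 : ℝ) ≤ 1 - (Λ : ℝ)⁻¹ :=
        sub_nonneg.2 (inv_le_one_of_one_le₀ (by exact_mod_cast hΛ))
      have h1 : (1 - (Λ : ℝ)⁻¹) * (1 - 1 / (8 * (t : ℝ)))
          ≤ ∑ s, π s * ∑ s', base q b s s' := by
        calc (1 - (Λ : ℝ)⁻¹) * (1 - 1 / (8 * (t : ℝ)))
            ≤ (1 - (Λ : ℝ)⁻¹) * ∑ m, μ q b m * μ q (!b) m / max (μ q b m) (μ q (!b) m) :=
              mul_le_mul_of_nonneg_left (hmin q b) hΛ1
          _ = ∑ γ, v γ * ((μ q (!b) (mid q b γ) / max (μ q b (mid q b γ)) (μ q (!b) (mid q b γ)))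
                * (1 - (Λ : ℝ)⁻¹)) := by
              rw [← hμsum q b fun m =>
                μ q (!b) m / max (μ q b m) (μ q (!b) m) * (1 - (Λ : ℝ)⁻¹), mul_sum]
              exact sum_congr rfl fun m _ => by ring
          _ ≤ _ := by
              rw [Fintype.sum_prod_type]
              refine sum_le_sum fun γ _ => ?_
              simp only [π, hrow, mul_assoc, ← mul_sum]
              refine mul_le_mul_of_nonneg_left ?_ (hv γ)
              rw [mul_left_comm]
              refine mul_le_mul_of_nonneg_left ?_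
                (div_nonneg (hμ0 _ _ _) ((hμ0 _ _ _).trans (le_max_left _ _)))
              simp only [c]
              rw [le_inv_mul_iff₀ (by exact_mod_cast Nat.pos_of_ne_zero hΘ), mul_comm]
              exact mean_step b (mid q b γ) hΛ
      have : (0 : ℝ) ≤ (Λ : ℝ)⁻¹ * (1 / (8 * (t : ℝ))) := by positivity
      linarith [show (1 - (Λ : ℝ)⁻¹) * (1 - 1 / (8 * (t : ℝ)))
        = 1 - (1 / (8 * (t : ℝ)) + (Λ : ℝ)⁻¹) + (Λ : ℝ)⁻¹ * (1 / (8 * (t : ℝ))) by ring]
    simp only [mul_sum]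
    rw [sum_comm]
    calc 1 - (1 / (8 * (t : ℝ)) + (Λ : ℝ)⁻¹)
        = ∑ _q : Fin d, (2 * (d : ℝ))⁻¹ * ((1 - (1 / (8 * (t : ℝ)) + (Λ : ℝ)⁻¹))
            + (1 - (1 / (8 * (t : ℝ)) + (Λ : ℝ)⁻¹))) := by
          rw [sum_const, card_univ, Fintype.card_fin, nsmul_eq_mul]; field_simp; ring
      _ ≤ _ := by
          refine sum_le_sum fun q _ => (mul_le_mul_of_nonneg_left
            (add_le_add (hone q true) (hone q false)) (by positivity)).trans_eq ?_
          simp only [mul_sum, ← sum_add_distrib, A, Matrix.of_apply]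
          exact sum_congr rfl fun s _ => sum_congr rfl fun s' _ => by ring
  -- the test map
  let ext : (Fin (2 * R) → Fin W) → ℕ → ℕ := fun m k =>
    if hk : k < 2 * R then (m ⟨k, hk⟩).val else 0
  let f : Γ × Θ → Vec := fun s => ∑ m, ((s.2 m).val : ℝ) • altAt R (ext m)
  have hsingle : ∀ q s s', 0 < A q s s' → ∃ b,
      mid q b s.1 = mid q (!b) s'.1 ∧
        f s' - f s = sgn b • altAt R (ext (mid q b s.1)) := by
    intro q s s' h
    obtain ⟨b, hb⟩ : ∃ b, base q b s s' ≠ 0 := by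
      by_contra hno
      push Not at hno
      simp [A, hno] at h
    simp only [base] at hb
    split_ifs at hb with hcond
    swap
    · exact absurd rfl hb
    refine ⟨b, hcond.1, ?_⟩
    obtain ⟨hother, hat⟩ := hcond.2
    simp only [f, ← sum_sub_distrib, ← sub_smul]
    rw [sum_eq_single (mid q b s.1)]
    · congr 1
      cases b <;> simp [sgn] at hat ⊢ <;> rw [hat] <;> push_cast <;> ring
    · intro m _ hm
      rw [hother m hm, sub_self, zero_smul]
    · simp
  have hextY : ∀ q b γ k (hk : k < 2 * R), ext (mid q b γ) k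
      = Y γ ⟨slotPos d q (k + shiftOf b), (idx q b ⟨k, hk⟩).isLt⟩ := by
    intro q b γ k hk
    simp only [ext, hk, dite_true]
    rfl
  have hnormext : ∀ q b γ, N (altAt R (ext (mid q b γ))) = ν := by
    intro q b γ
    refine hN.norm_altAt R _ fun a a' haa' ha' => ?_
    rw [hextY q b γ a (by omega), hextY q b γ a' ha']
    exact hY γ (slotPos_mono q.isLt (by omega))
  have hsgn : ∀ b, ‖sgn b‖ = 1 := fun b => by cases b <;> simp [sgn]
  have hν0 : 0 ≤ ν := apply_nonneg N _
  have hstep : ∀ s s', 0 < P s s' → N (f s' - f s) ≤ ν := by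
    intro s s' h
    by_cases hs : s = s'
    · simp [hs, hν0]
    · obtain ⟨q, hq⟩ : ∃ q, A q s s' ≠ 0 := by
        by_contra hno
        push Not at hno
        simp [P, hno, hs] at h
      obtain ⟨b, -, hdiff⟩ := hsingle q s s' ((hA0 q s s').lt_of_ne hq.symm)
      rw [hdiff, map_smul_eq_mul, hsgn, one_mul, hnormext]
  -- long paths are far apart
  set L := (t : ℝ) * ν - 8 * (t : ℝ) ^ 2 with hL
  have hν24 : 24 * (t : ℝ) ≤ ν := hR0.le
  have hL23 : 2 / 3 * ((t : ℝ) * ν) ≤ L := by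
    have := mul_le_mul_of_nonneg_left hν24 (Nat.cast_nonneg t : (0 : ℝ) ≤ t)
    rw [hL]; nlinarith
  have hL0 : 0 ≤ L := le_trans (by positivity) hL23
  have hpath : ∀ (s : ℕ → Γ × Θ) (l : ℕ → Fin d), (∀ j < t, 0 < A (l j) (s j) (s (j + 1))) →
      (∀ j, j + 1 < t → l (j + 1) ≠ l j) → L ≤ N (f (s t) - f (s 0)) := by
    intro s l hpos hne
    choose b hb using fun j : { j // j < t } => hsingle (l j) _ _ (hpos j j.2)
    let b' : ℕ → Bool := fun j => if hj : j < t then b ⟨j, hj⟩ else true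
    have hb' : ∀ j < t, mid (l j) (b' j) (s j).1 = mid (l j) (!b' j) (s (j + 1)).1 ∧
        f (s (j + 1)) - f (s j) = sgn (b' j) • altAt R (ext (mid (l j) (b' j) (s j).1)) := by
      intro j hj
      simp only [b', hj, dite_true]
      exact hb ⟨j, hj⟩
    rw [← sum_range_sub (fun j => f (s j)) t, sum_congr rfl fun j hj => (hb' j (mem_range.1 hj)).2]
    let Y' : ℕ → ℕ → ℕ := fun j a => if ha : a < n then Y (s j).1 ⟨a, ha⟩ else 0
    refine norm_path_sum hN ht hR hn Y' (fun j _ a a' haa' ha' => ?_) (fun j => (l j).val)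
      (fun j _ => (l j).isLt) (fun j hj h => hne j hj (Fin.ext h)) b'
      (fun j => ext (mid (l j) (b' j) (s j).1)) (fun j _ k hk => ?_) fun j hj k hk => ?_
    · simp only [Y', show a < n by omega, ha', dite_true]
      exact hY _ haa'
    · rw [hextY _ _ _ k hk]
      simp only [Y']
      rw [dif_pos (idx (l j) (b' j) ⟨k, hk⟩).isLt]
    · rw [(hb' j hj).1, hextY _ _ _ k hk]
      simp only [Y']
      rw [dif_pos (idx (l j) (!b' j) ⟨k, hk⟩).isLt]
  have hmean := mean_of_paths π P hπ0 hP0 hP1 hπ1 hrev hA0 hAP (δ := 1 / (d : ℝ))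
    (by positivity) hArow hmove (g := fun i j => N (f j - f i)) (fun i j => apply_nonneg N _) hL0
    ht hpath
  have hfac : 1 - (t : ℝ) * (1 / (d : ℝ) + (1 / (8 * (t : ℝ)) + (Λ : ℝ)⁻¹)) = 5 / 8 := by
    rw [hd, hΛdef]; push_cast; field_simp; ring
  rw [hfac] at hmean
  have hD : (t : ℝ) / 3 * ν ≤ ∑ i, ∑ j, π i * (P ^ t) i j * N (f j - f i) := by
    refine le_trans ?_ hmean
    have : 0 ≤ (t : ℝ) * ν := by positivity
    linarith
  have hb := hN.displacement_bound hp.le hK π P hπ0 hP0 hP1 hπ1 hrev f t ht (by positivity) hstep hD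
  have hνpos : 0 < ν := by linarith
  have e1 : ((t : ℝ) / 3 * ν) ^ p * (3 : ℝ) ^ p = (t : ℝ) ^ p * ν ^ p := by
    rw [← Real.mul_rpow (by positivity) (by norm_num), ← Real.mul_rpow (by positivity) hν0]
    congr 1; ring
  have e2 : (3 * K) ^ p = (3 : ℝ) ^ p * K ^ p := Real.mul_rpow (by norm_num) hK
  have h3 := mul_le_mul_of_nonneg_right hb (Real.rpow_nonneg (show (0 : ℝ) ≤ 3 by norm_num) p)
  rw [e1] at h3
  have h4 := mul_lt_mul_of_pos_right hlarge (Real.rpow_pos_of_pos hνpos p)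
  rw [e2] at h4
  nlinarith

end Vale.Agent.P125
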