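import Vale.Agent.P125.Limit

/-!
In a model seminorm of nontrivial Markov type the norms of alternating sums are unbounded.
-/

namespace Vale.Agent.P125

open Finset

variable {N : Seminorm ℝ Vec} {p K θ : ℝ}

/-- The alternating sum of length `2R`. -/
noncomputable def alt (R : ℕ) : Vec := ∑ i ∈ range (2 * R), (-1 : ℝ) ^ i • unitVec i

/-- The `j`-th pair difference. -/
noncomputable def pairVec (j : ℕ) : Vec := unitVec (2 * j) - unitVec (2 * j + 1)

lemma alt_eq_sum_pairVec (R : ℕ) : alt R = ∑ j ∈ range R, pairVec j := by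
  induction R with
  | zero => simp [alt]
  | succ R ih =>
      rw [sum_range_succ, ← ih, alt, alt, show 2 * (R + 1) = 2 * R + 1 + 1 by ring,
        sum_range_succ, sum_range_succ, pairVec, pow_succ,
        (even_two_mul R).neg_one_pow]
      simp [sub_eq_add_neg, add_assoc]

lemma mapDomain_pairVec (g : ℕ → ℕ) (j : ℕ) :
    Finsupp.mapDomain (blockMap 2 g) (pairVec j) = pairVec (g j) := by
  simp only [pairVec, sub_eq_add_neg, Finsupp.mapDomain_add, ← Finsupp.single_neg,
    Finsupp.mapDomain_single, unitVec, blockMap]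
  rw [show 2 * j / 2 = j by omega, show (2 * j + 1) / 2 = j by omega,
    show 2 * j % 2 = 0 by omega, show (2 * j + 1) % 2 = 1 by omega, add_zero]

lemma IsModel.pair_sum (hN : IsModel N p K θ) (g : ℕ → ℕ) (hg : StrictMono g) (A : Finset ℕ)
    (a : ℕ → ℝ) : N (∑ j ∈ A, a j • pairVec (g j)) = N (∑ j ∈ A, a j • pairVec j) := by
  rw [← hN.spread _ (strictMono_blockMap two_pos hg) (∑ j ∈ A, a j • pairVec j),
    Finsupp.mapDomain_finsetSum]
  simp only [Finsupp.mapDomain_smul, mapDomain_pairVec]

lemma IsModel.theta_le_pair (hN : IsModel N p K θ) : θ ≤ N (pairVec 0) := by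
  refine hN.sep.trans_eq ?_
  rw [pairVec, map_sub_rev N]

/-- If alternating sums are bounded, deleting coordinates does not increase the norm. -/
lemma IsModel.suppress (hN : IsModel N p K θ) {B : ℝ} (hB : ∀ R, N (alt R) ≤ B) (n : ℕ)
    (A : Finset ℕ) (hA : A ⊆ range n) (a : ℕ → ℝ) :
    N (∑ j ∈ A, a j • pairVec j) ≤ N (∑ j ∈ range n, a j • pairVec j) := by
  set Y := N (∑ j ∈ range n, a j • pairVec j)
  refine le_of_forall_pos_le_add fun δ hδ => ?_
  set C := ∑ j ∈ range n, |a j| with hC
  have hC0 : 0 ≤ C := sum_nonneg fun _ _ => abs_nonneg _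
  have hB0 : 0 ≤ B := (apply_nonneg N _).trans (hB 0)
  obtain ⟨m, hm⟩ := exists_nat_gt (C * B / δ)
  have hm0 : (0 : ℝ) < m := lt_of_le_of_lt (by positivity) hm
  have hmn : 0 < m := by exact_mod_cast hm0
  let g : ℕ → ℕ → ℕ := fun r j => if j ∈ A then m * j else m * j + r
  have hg : ∀ r < m, StrictMono (g r) := by
    intro r hr i j hij
    have : m * (i + 1) ≤ m * j := Nat.mul_le_mul_left m hij
    rw [Nat.mul_add, Nat.mul_one] at this
    simp only [g]
    split_ifs <;> omega
  -- the average over the placements of the complement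
  have havg : N (∑ r ∈ range m, ∑ j ∈ range n, a j • pairVec (g r j)) ≤ m * Y := by
    refine (le_sum_of_subadditive N (map_zero N).le (map_add_le_add N) _ _).trans ?_
    refine (sum_le_sum fun r hr => (hN.pair_sum _ (hg r (mem_range.1 hr)) _ a).le).trans_eq ?_
    simp [Y]
  have hsplit : ∑ r ∈ range m, ∑ j ∈ range n, a j • pairVec (g r j)
      = (m : ℝ) • ∑ j ∈ A, a j • pairVec (m * j)
        + ∑ j ∈ range n \ A, a j • ∑ r ∈ range m, pairVec (m * j + r) := by
    rw [sum_comm, ← sum_sdiff hA, add_comm, smul_sum]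
    congr 1
    · refine sum_congr rfl fun j hj => ?_
      simp only [g, hj, if_true, sum_const, card_range]
      rw [← Nat.cast_smul_eq_nsmul ℝ]
    · refine sum_congr rfl fun j hj => ?_
      simp only [g, (mem_sdiff.1 hj).2, if_false, smul_sum]
  have hcomp : N (∑ j ∈ range n \ A, a j • ∑ r ∈ range m, pairVec (m * j + r)) ≤ C * B := by
    refine (le_sum_of_subadditive N (map_zero N).le (map_add_le_add N) _ _).trans ?_
    rw [hC, sum_mul]
    refine (sum_le_sum fun j _ => ?_).trans
      (sum_le_sum_of_subset_of_nonneg sdiff_subset fun j _ _ => mul_nonneg (abs_nonneg _) hB0)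
    rw [map_smul_eq_mul, Real.norm_eq_abs]
    refine mul_le_mul_of_nonneg_left ?_ (abs_nonneg _)
    have := hN.pair_sum (fun r => m * j + r) (fun x y h => Nat.add_lt_add_left h _) (range m)
      fun _ => 1
    simp only [one_smul] at this
    rw [this, ← alt_eq_sum_pairVec]
    exact hB m
  have hmain : (m : ℝ) * N (∑ j ∈ A, a j • pairVec j) ≤ m * Y + C * B := by
    rw [← hN.pair_sum (fun j => m * j) (fun x y h => Nat.mul_lt_mul_of_pos_left h hmn) A a]
    have h := map_sub_le_add N (∑ r ∈ range m, ∑ j ∈ range n, a j • pairVec (g r j))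
      (∑ j ∈ range n \ A, a j • ∑ r ∈ range m, pairVec (m * j + r))
    rw [hsplit, add_sub_cancel_right, map_smul_eq_mul, Real.norm_eq_abs, abs_of_pos hm0] at h
    rw [hsplit] at havg
    linarith
  rw [div_lt_iff₀ hδ] at hm
  nlinarith

section markov

/-- Powers of stochastic matrices are stochastic. -/
lemma stochastic_pow {S : Type} [Fintype S] [DecidableEq S] {P : Matrix S S ℝ}
    (hP : ∀ i j, 0 ≤ P i j) (hP1 : ∀ i, ∑ j, P i j = 1) (t : ℕ) :
    (∀ i j, 0 ≤ (P ^ t) i j) ∧ ∀ i, ∑ j, (P ^ t) i j = 1 := by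
  induction t with
  | zero =>
      refine ⟨fun i j => ?_, fun i => ?_⟩
      · rw [pow_zero, Matrix.one_apply]; split_ifs <;> norm_num
      · simp [Matrix.one_apply]
  | succ t ih =>
      refine ⟨fun i j => ?_, fun i => ?_⟩
      · rw [pow_succ, Matrix.mul_apply]
        exact sum_nonneg fun l _ => mul_nonneg (ih.1 i l) (hP l j)
      · simp only [pow_succ, Matrix.mul_apply]
        rw [sum_comm]
        simp only [← mul_sum, hP1, mul_one, ih.2 i]

/-- A mean displacement `D` after `t` steps of size at most `B` obeys `D ^ p ≤ K ^ p t B ^ p`. -/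
lemma IsModel.displacement_bound (hN : IsModel N p K θ) (hp : 1 ≤ p) (hK : 0 ≤ K)
    {S : Type} [Fintype S] [DecidableEq S] (π : S → ℝ) (P : Matrix S S ℝ)
    (hπ : ∀ i, 0 ≤ π i) (hP : ∀ i j, 0 ≤ P i j) (hP1 : ∀ i, ∑ j, P i j = 1)
    (hπ1 : ∑ i, π i = 1) (hrev : ∀ i j, π i * P i j = π j * P j i) (f : S → Vec) (t : ℕ)
    (ht : 1 ≤ t) {B D : ℝ} (hD0 : 0 ≤ D)
    (hstep : ∀ i j, 0 < P i j → N (f j - f i) ≤ B)
    (hD : D ≤ ∑ i, ∑ j, π i * (P ^ t) i j * N (f j - f i)) :
    D ^ p ≤ K ^ p * (t : ℝ) * B ^ p := by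
  obtain ⟨hQ, hQ1⟩ := stochastic_pow hP hP1 t
  have hmean := Real.rpow_arith_mean_le_arith_mean_rpow (univ : Finset (S × S))
    (fun z => π z.1 * (P ^ t) z.1 z.2) (fun z => N (f z.2 - f z.1))
    (fun z _ => mul_nonneg (hπ _) (hQ _ _))
    (by rw [Fintype.sum_prod_type]; simp only [← mul_sum, hQ1, mul_one, hπ1])
    (fun z _ => apply_nonneg N _) hp
  rw [Fintype.sum_prod_type, Fintype.sum_prod_type] at hmean
  have hstep' : ∑ i, ∑ j, π i * P i j * N (f j - f i) ^ p ≤ B ^ p := by
    calc ∑ i, ∑ j, π i * P i j * N (f j - f i) ^ p ≤ ∑ i, ∑ j, π i * P i j * B ^ p := by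
          refine sum_le_sum fun i _ => sum_le_sum fun j _ => ?_
          rcases (hP i j).eq_or_lt with h0 | h0
          · simp [← h0]
          · exact mul_le_mul_of_nonneg_left
              (Real.rpow_le_rpow (apply_nonneg N _) (hstep i j h0) (by linarith))
              (mul_nonneg (hπ i) (hP i j))
      _ = B ^ p := by simp only [← sum_mul, ← mul_sum, hP1, mul_one, hπ1, one_mul]
  calc D ^ p ≤ (∑ i, ∑ j, π i * (P ^ t) i j * N (f j - f i)) ^ p :=
        Real.rpow_le_rpow hD0 hD (by linarith)
    _ ≤ ∑ i, ∑ j, π i * (P ^ t) i j * N (f j - f i) ^ p := hmean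
    _ ≤ K ^ p * (t : ℝ) * ∑ i, ∑ j, π i * P i j * N (f j - f i) ^ p :=
        hN.markov S π P hπ hP hP1 hπ1 hrev f t ht
    _ ≤ _ := mul_le_mul_of_nonneg_left hstep' (by positivity)

lemma exists_large_time (hp : 1 < p) (C : ℝ) :
    ∃ t : ℕ, 1 ≤ t ∧ C * (t : ℝ) < (t : ℝ) ^ p := by
  obtain ⟨t, h1, ht⟩ := (((tendsto_rpow_atTop (show 0 < p - 1 by linarith)).comp
    tendsto_natCast_atTop_atTop).eventually_gt_atTop C |>.and
      (Filter.eventually_ge_atTop 1)).exists
  refine ⟨t, ht, ?_⟩
  have htr : (0 : ℝ) < t := by exact_mod_cast ht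
  have hadd : (t : ℝ) ^ p = (t : ℝ) ^ (p - 1) * t := by
    rw [← Real.rpow_add_one htr.ne', sub_add_cancel]
  rw [hadd]
  exact mul_lt_mul_of_pos_right h1 htr

end markov

section cube

variable {n : ℕ}

/-- The Hamming distance on the cube. -/
def ham (x y : Fin n → Bool) : ℝ := ∑ i, if x i = y i then 0 else 1

/-- Flipping one coordinate. -/
def flipAt (i : Fin n) (x : Fin n → Bool) : Fin n → Bool := Function.update x i (!(x i))

lemma flipAt_flipAt (i : Fin n) (x : Fin n → Bool) : flipAt i (flipAt i x) = x := by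
  simp [flipAt]

/-- The random walk on the cube. -/
noncomputable def cubeMat (n : ℕ) : Matrix (Fin n → Bool) (Fin n → Bool) ℝ :=
  Matrix.of fun x y => (n : ℝ)⁻¹ * ∑ i, if y = flipAt i x then 1 else 0

lemma cubeMat_nonneg (x y : Fin n → Bool) : 0 ≤ cubeMat n x y :=
  mul_nonneg (by positivity) (sum_nonneg fun i _ => by split_ifs <;> norm_num)

lemma sum_cubeMat_mul (x : Fin n → Bool) (g : (Fin n → Bool) → ℝ) :
    ∑ y, cubeMat n x y * g y = (n : ℝ)⁻¹ * ∑ i, g (flipAt i x) := by
  simp only [cubeMat, Matrix.of_apply, mul_assoc, ← mul_sum, sum_mul, ite_mul, one_mul, zero_mul]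
  rw [sum_comm]
  simp

lemma cubeMat_row (hn : 0 < n) (x : Fin n → Bool) : ∑ y, cubeMat n x y = 1 := by
  have h : (n : ℝ) ≠ 0 := by exact_mod_cast hn.ne'
  simpa [h] using sum_cubeMat_mul x fun _ => 1

lemma cubeMat_symm (x y : Fin n → Bool) : cubeMat n x y = cubeMat n y x := by
  simp only [cubeMat, Matrix.of_apply]
  congr 1
  refine sum_congr rfl fun i _ => if_congr ⟨fun h => ?_, fun h => ?_⟩ rfl rfl
  · rw [h, flipAt_flipAt]
  · rw [h, flipAt_flipAt]

lemma sum_ham_flipAt (x z : Fin n → Bool) :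
    ∑ i, ham x (flipAt i z) = n * ham x z + n - 2 * ham x z := by
  have e : ∀ i, ham x (flipAt i z) = ham x z + 1 - 2 * (if x i = z i then 0 else 1) := by
    intro i
    rw [ham, ham, ← add_sum_erase _ _ (mem_univ i), ← add_sum_erase _ _ (mem_univ i)]
    have : ∑ l ∈ univ.erase i, (if x l = flipAt i z l then (0 : ℝ) else 1)
        = ∑ l ∈ univ.erase i, if x l = z l then (0 : ℝ) else 1 :=
      sum_congr rfl fun l hl => by simp [flipAt, Function.update, (mem_erase.1 hl).1]
    rw [this]
    cases hx : x i <;> cases hz : z i <;> simp [flipAt, hz] <;> ring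
  rw [sum_congr rfl fun i _ => e i, sum_sub_distrib, ← mul_sum]
  simp [ham]

lemma ham_walk (hn : 0 < n) (x : Fin n → Bool) (t : ℕ) :
    ∑ y, ((cubeMat n) ^ t) x y * ham x y ≤ t ∧
      (t : ℝ) - 2 * (t : ℝ) ^ 2 / n ≤ ∑ y, ((cubeMat n) ^ t) x y * ham x y := by
  have hnr : (0 : ℝ) < n := by exact_mod_cast hn
  induction t with
  | zero => simp [Matrix.one_apply, ham]
  | succ t ih =>
      set a := ∑ y, ((cubeMat n) ^ t) x y * ham x y with ha
      have hrow := (stochastic_pow cubeMat_nonneg (cubeMat_row hn) t).2 x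
      have hnn := (stochastic_pow cubeMat_nonneg (cubeMat_row hn) t).1 x
      have ha0 : 0 ≤ a := sum_nonneg fun y _ => mul_nonneg (hnn y)
        (sum_nonneg fun i _ => by split_ifs <;> norm_num)
      have hstep : ∑ y, ((cubeMat n) ^ (t + 1)) x y * ham x y = a + 1 - 2 * a / n := by
        simp only [pow_succ, Matrix.mul_apply, sum_mul, mul_assoc]
        rw [sum_comm]
        simp only [← mul_sum, sum_cubeMat_mul, sum_ham_flipAt]
        have e : ∀ y, ((cubeMat n) ^ t) x y * ((n : ℝ)⁻¹ * (n * ham x y + n - 2 * ham x y))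
            = (1 - 2 / n) * (((cubeMat n) ^ t) x y * ham x y) + ((cubeMat n) ^ t) x y := by
          intro y; field_simp; ring
        rw [sum_congr rfl fun y _ => e y, sum_add_distrib, ← mul_sum, hrow, ← ha]
        ring
      rw [hstep]
      push_cast
      constructor
      · have : 0 ≤ 2 * a / n := by positivity
        linarith [ih.1]
      · have h1 : 2 * a / n ≤ 2 * t / n := by gcongr; exact ih.1
        have h2 : 2 * (t : ℝ) ^ 2 / n + 2 * t / n ≤ 2 * ((t : ℝ) + 1) ^ 2 / n := by
          rw [← add_div]; gcongr; nlinarith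
        linarith [ih.2]

/-- Alternating sums have unbounded norms. -/
theorem IsModel.alt_unbounded (hN : IsModel N p K θ) (hp : 1 < p) (hK : 0 ≤ K) (hθ : 0 < θ)
    (B : ℝ) : ∃ R, B < N (alt R) := by
  by_contra hcon
  push Not at hcon
  have hB0 : 0 ≤ B := (apply_nonneg N _).trans (hcon 0)
  obtain ⟨t, ht, hlarge⟩ := exists_large_time hp ((4 * K * B / θ) ^ p)
  set n := 4 * t with hn
  have hn0 : 0 < n := by omega
  set M := Fintype.card (Fin n → Bool) with hM
  let η : Fin M → Fin n → Bool := (Fintype.equivFin (Fin n → Bool)).symm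
  let coef : (Fin n → Bool) → ℕ → ℝ := fun x j =>
    if h : j < M then ∑ i, (if η ⟨j, h⟩ i then (1 : ℝ) else -1) * (if x i then 1 else 0) else 0
  let f : (Fin n → Bool) → Vec := fun x => ∑ j ∈ range M, coef x j • pairVec j
  have hf : ∀ x y, f y - f x = ∑ j ∈ range M, (coef y j - coef x j) • pairVec j := fun x y => by
    simp only [f, sub_smul, sum_sub_distrib]
  -- long pairs are far apart
  have hfar : ∀ x y, θ * ham x y ≤ N (f y - f x) := by
    intro x y
    set j := (Fintype.equivFin (Fin n → Bool) y).val with hj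
    have hjM : j < M := (Fintype.equivFin (Fin n → Bool) y).isLt
    have h := hN.suppress hcon M {j} (by simpa using hjM) fun l => coef y l - coef x l
    rw [sum_singleton, map_smul_eq_mul, Real.norm_eq_abs, ← hf] at h
    refine le_trans ?_ h
    have hη : η ⟨j, hjM⟩ = y := by simp [η, hj]
    have hcoef : coef y j - coef x j = ham x y := by
      simp only [coef, hjM, dite_true, hη, ← sum_sub_distrib]
      refine sum_congr rfl fun i _ => ?_
      cases hy : y i <;> cases hx : x i <;> simp
    have hpair : θ ≤ N (pairVec j) := by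
      refine hN.theta_le_pair.trans_eq ?_
      have := hN.pair_sum (fun l => l + j) (fun a b h => Nat.add_lt_add_right h j) {0} fun _ => 1
      simpa using this.symm
    rw [hcoef, abs_of_nonneg (sum_nonneg fun i _ => by split_ifs <;> norm_num), mul_comm θ]
    exact mul_le_mul_of_nonneg_left hpair (sum_nonneg fun i _ => by split_ifs <;> norm_num)
  -- single steps are short
  have hstep : ∀ x y, 0 < cubeMat n x y → N (f y - f x) ≤ 2 * B := by
    intro x y hxy
    obtain ⟨i, hi⟩ : ∃ i, y = flipAt i x := by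
      by_contra hno
      push Not at hno
      simp [cubeMat, hno] at hxy
    have hval : ∀ j ∈ range M, coef y j - coef x j = 1 ∨ coef y j - coef x j = -1 := by
      intro j hj
      simp only [coef, mem_range.1 hj, dite_true, ← sum_sub_distrib]
      rw [sum_eq_single i]
      · rw [hi]
        cases hη : η ⟨j, mem_range.1 hj⟩ i <;> cases hx : x i <;> simp [flipAt, hx]
      · intro l _ hl
        rw [hi]
        simp [flipAt, Function.update, hl]
      · simp
    rw [hf, ← sum_filter_add_sum_filter_not (range M) (fun j => coef y j - coef x j = 1)]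
    have hpart : ∀ A ⊆ range M, N (∑ j ∈ A, pairVec j) ≤ B := by
      intro A hA
      have := hN.suppress hcon M A hA fun _ => 1
      simp only [one_smul, ← alt_eq_sum_pairVec] at this
      exact this.trans (hcon M)
    refine (map_add_le_add N _ _).trans ?_
    rw [two_mul]
    refine add_le_add ?_ ?_
    · rw [sum_congr rfl fun j hj => by rw [(mem_filter.1 hj).2, one_smul]]
      exact hpart _ (filter_subset _ _)
    · rw [sum_congr rfl fun j hj => by
        rw [((hval j (mem_filter.1 hj).1).resolve_left (mem_filter.1 hj).2), neg_one_smul],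
        sum_neg_distrib, map_neg_eq_map]
      exact hpart _ (filter_subset _ _)
  set c : ℝ := ((Fintype.card (Fin n → Bool) : ℕ) : ℝ)⁻¹ with hc
  have hc0 : 0 ≤ c := by positivity
  have hc1 : ∑ _x : Fin n → Bool, c = 1 := by
    rw [sum_const, card_univ, nsmul_eq_mul, hc, mul_inv_cancel₀]
    exact_mod_cast Fintype.card_ne_zero
  have hD : θ * ((t : ℝ) / 2)
      ≤ ∑ x, ∑ y, c * ((cubeMat n) ^ t) x y * N (f y - f x) := by
    calc θ * ((t : ℝ) / 2) = ∑ _x : Fin n → Bool, c * (θ * ((t : ℝ) / 2)) := by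
          rw [← sum_mul, hc1, one_mul]
      _ ≤ ∑ x, c * (θ * ∑ y, ((cubeMat n) ^ t) x y * ham x y) := by
          refine sum_le_sum fun x _ => mul_le_mul_of_nonneg_left
            (mul_le_mul_of_nonneg_left (le_trans (le_of_eq ?_) (ham_walk hn0 x t).2) hθ.le) hc0
          have htr : (t : ℝ) ≠ 0 := by exact_mod_cast (show t ≠ 0 by omega)
          rw [hn]; push_cast; field_simp; ring
      _ ≤ _ := by
          refine sum_le_sum fun x _ => ?_
          rw [mul_sum, mul_sum]
          refine sum_le_sum fun y _ => ?_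
          have := (stochastic_pow cubeMat_nonneg (cubeMat_row hn0) t).1 x y
          calc c * (θ * (((cubeMat n) ^ t) x y * ham x y))
              = c * ((cubeMat n) ^ t) x y * (θ * ham x y) := by ring
            _ ≤ _ := mul_le_mul_of_nonneg_left (hfar x y) (by positivity)
  have hb := hN.displacement_bound hp.le hK (fun _ => c) (cubeMat n) (fun _ => hc0) cubeMat_nonneg
    (cubeMat_row hn0) hc1 (fun x y => by rw [cubeMat_symm]) f t ht (by positivity) hstep hD
  have e1 : θ * ((t : ℝ) / 2) = θ / 2 * t := by ring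
  have e2 : (4 * K * B / θ) ^ p * (θ / 2) ^ p = K ^ p * (2 * B) ^ p := by
    rw [← Real.mul_rpow (by positivity) (by positivity), ← Real.mul_rpow hK (by positivity)]
    congr 1
    field_simp
    ring
  rw [e1, Real.mul_rpow (by positivity) (by positivity)] at hb
  have := mul_lt_mul_of_pos_left hlarge (Real.rpow_pos_of_pos (half_pos hθ) p)
  nlinarith [e2]

end cube

end Vale.Agent.P125
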