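import Mathlib

/-!
Random increasing tuples all of whose sub-tuples of a given length have nearly the same law.
-/

namespace Vale.Agent.P125

open Finset

/-- A finite law on increasing `n`-tuples below a bound whose `m`-sub-tuples are
`ε`-indistinguishable. -/
def SpreadLaw (n m : ℕ) (ε : ℝ) : Prop :=
  ∃ (W : ℕ) (Γ : Type) (_ : Fintype Γ) (w : Γ → ℝ) (X : Γ → Fin n → ℕ),
    (∀ c, 0 ≤ w c) ∧ ∑ c, w c = 1 ∧ (∀ c, StrictMono (X c)) ∧ (∀ c i, X c i < W) ∧
    ∀ I J : Fin m → Fin n, StrictMono I → StrictMono J → ∀ h : (Fin m → ℕ) → ℝ,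
      (∀ z, |h z| ≤ 1) → |∑ c, w c * h (X c ∘ I) - ∑ c, w c * h (X c ∘ J)| ≤ ε

lemma shift_one (L s : ℕ) (f : ℕ → ℝ) (hf : ∀ x, |f x| ≤ 1) :
    |∑ x ∈ range L, f (x + s) - ∑ x ∈ range L, f x| ≤ 2 * s := by
  have h1 : ∑ x ∈ range (s + L), f x = ∑ x ∈ range s, f x + ∑ x ∈ range L, f (x + s) := by
    rw [sum_range_add]; simp [add_comm]
  have h2 : ∑ x ∈ range (s + L), f x = ∑ x ∈ range L, f x + ∑ x ∈ range s, f (L + x) := by
    rw [add_comm, sum_range_add]
  have e : ∑ x ∈ range L, f (x + s) - ∑ x ∈ range L, f x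
      = ∑ x ∈ range s, f (L + x) - ∑ x ∈ range s, f x := by linarith
  rw [e]
  refine (abs_sub _ _).trans ?_
  have b : ∀ g : ℕ → ℝ, (∀ x, |g x| ≤ 1) → |∑ x ∈ range s, g x| ≤ (s : ℝ) := fun g hg =>
    (abs_sum_le_sum_abs _ _).trans ((sum_le_sum fun x _ => hg x).trans (by simp))
  linarith [b (fun x => f (L + x)) (fun x => hf _), b f hf]

/-- The box with side lengths `L`. -/
def box {q : ℕ} (L : Fin q → ℕ) : Finset (Fin q → ℕ) := Fintype.piFinset fun a => range (L a)

lemma card_box {q : ℕ} (L : Fin q → ℕ) : (box L).card = ∏ a, L a := by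
  simp [box, Fintype.card_piFinset]

lemma sum_box_cons {q : ℕ} (L : Fin (q + 1) → ℕ) (f : (Fin (q + 1) → ℕ) → ℝ) :
    ∑ v ∈ box L, f v = ∑ x ∈ range (L 0), ∑ v ∈ box (Fin.tail L), f (Fin.cons x v) := by
  rw [← sum_product']
  refine sum_nbij' (fun v => (v 0, Fin.tail v)) (fun p => Fin.cons p.1 p.2) ?_ ?_ ?_ ?_ ?_
  · intro v hv
    simp only [box, Fintype.mem_piFinset, mem_range] at hv
    simp only [mem_product, mem_range, box, Fintype.mem_piFinset]
    exact ⟨hv 0, fun a => hv a.succ⟩
  · intro p hp
    simp only [mem_product, mem_range, box, Fintype.mem_piFinset] at hp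
    simp only [box, Fintype.mem_piFinset, mem_range]
    intro a
    refine Fin.cases ?_ ?_ a
    · simpa using hp.1
    · intro i; simpa [Fin.tail] using hp.2 i
  · intro v _; exact Fin.cons_self_tail v
  · intro p _; simp
  · intro v _; simp

/-- Translating a box changes averages by at most the relative size of the translation. -/
lemma shift_box : ∀ {q : ℕ} (L : Fin q → ℕ), (∀ a, 0 < L a) → ∀ (s : Fin q → ℕ)
    (h : (Fin q → ℕ) → ℝ), (∀ z, |h z| ≤ 1) →
    |∑ v ∈ box L, h (fun a => v a + s a) - ∑ v ∈ box L, h v|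
      ≤ (box L).card * ∑ a, 2 * (s a : ℝ) / L a := by
  intro q
  induction q with
  | zero =>
      intro L _ s h _
      have e : ∀ v : Fin 0 → ℕ, (fun a => v a + s a) = v := fun v => funext fun a => a.elim0
      simp [e]
  | succ q ih =>
      intro L hL s h hh
      have ih' := ih (Fin.tail L) (fun a => hL _) (Fin.tail s)
      set C : ℝ := ((box (Fin.tail L)).card : ℝ) with hC
      set T : ℝ := ∑ a, 2 * (Fin.tail s a : ℝ) / Fin.tail L a with hT
      have hshift : ∀ x v, (fun a => (Fin.cons x v : Fin (q+1) → ℕ) a + s a)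
          = Fin.cons (x + s 0) (fun a => v a + Fin.tail s a) := by
        intro x v; funext a
        refine Fin.cases ?_ ?_ a <;> simp [Fin.tail]
      rw [sum_box_cons, sum_box_cons]
      simp only [hshift]
      have hcard : ((box L).card : ℝ) = L 0 * C := by
        rw [hC, card_box, card_box, Fin.prod_univ_succ]; push_cast; rfl
      rw [hcard, Fin.sum_univ_succ]
      have step1 : |∑ x ∈ range (L 0), ∑ v ∈ box (Fin.tail L),
            h (Fin.cons (x + s 0) (fun a => v a + Fin.tail s a))
          - ∑ x ∈ range (L 0), ∑ v ∈ box (Fin.tail L), h (Fin.cons (x + s 0) v)|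
          ≤ L 0 * (C * T) := by
        rw [← sum_sub_distrib]
        refine (abs_sum_le_sum_abs _ _).trans ?_
        refine (sum_le_sum fun x _ => ih' (fun v => h (Fin.cons (x + s 0) v)) fun z => hh _).trans ?_
        simp [hC, hT]
      have step2 : |∑ x ∈ range (L 0), ∑ v ∈ box (Fin.tail L), h (Fin.cons (x + s 0) v)
          - ∑ x ∈ range (L 0), ∑ v ∈ box (Fin.tail L), h (Fin.cons x v)| ≤ C * (2 * s 0) := by
        rw [sum_comm, sum_comm (s := range (L 0)), ← sum_sub_distrib]
        refine (abs_sum_le_sum_abs _ _).trans ?_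
        refine (sum_le_sum fun v _ =>
          shift_one (L 0) (s 0) (fun x => h (Fin.cons x v)) fun z => hh _).trans ?_
        simp [hC]
      refine (abs_sub_le _ _ _).trans ((add_le_add step1 step2).trans (le_of_eq ?_))
      have h0 : (0:ℝ) < L 0 := by exact_mod_cast hL 0
      simp only [hT, Fin.tail]
      field_simp
      ring

/-- Partial sums read off from translation and gap variables. -/
def cum {m : ℕ} (a : Fin m → ℕ) (z : Fin (m + 1) → ℕ) (k : Fin (m + 1)) : ℕ :=
  z 0 + ∑ l ∈ univ.filter (fun l : Fin m => l.val < k.val), (a l + z l.succ)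

/-- The canonical average of a test function over increasing `m+1`-tuples with gap scales `a`. -/
noncomputable def canon {m : ℕ} (L : ℕ) (a : Fin m → ℕ) (h : (Fin (m + 1) → ℕ) → ℝ) : ℝ :=
  (∑ z ∈ box (Fin.cons L a), h (cum a z)) / ((box (Fin.cons L a)).card : ℝ)

lemma abs_canon_le {m : ℕ} (L : ℕ) (a : Fin m → ℕ) (h : (Fin (m + 1) → ℕ) → ℝ)
    (hh : ∀ z, |h z| ≤ 1) : |canon L a h| ≤ 1 := by
  unfold canon
  rw [abs_div, abs_of_nonneg (by positivity : (0:ℝ) ≤ ((box (Fin.cons L a)).card : ℝ))]
  rcases Nat.eq_zero_or_pos (box (Fin.cons L a)).card with h0 | h0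
  · simp [h0]
  rw [div_le_one (by exact_mod_cast h0)]
  exact (abs_sum_le_sum_abs _ _).trans ((sum_le_sum fun z _ => hh _).trans (by simp))

/-- The points built from a translation `u`, scales `A` and gap variables `g`. -/
def pts {n : ℕ} (A : Fin n → ℕ) (u : ℕ) (g : Fin n → ℕ) (i : Fin n) : ℕ :=
  u + ∑ j ∈ univ.filter (fun j : Fin n => j < i), (A j + g j)

lemma strictMono_pts {n : ℕ} (A : Fin n → ℕ) (hA : ∀ j, 0 < A j) (u : ℕ) (g : Fin n → ℕ) :
    StrictMono (pts A u g) := by
  intro i i' hii'
  unfold pts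
  refine Nat.add_lt_add_left ?_ u
  refine sum_lt_sum_of_subset (i := i) ?_ (by simp [hii']) (by simp) ?_ (by simp)
  · intro j hj
    simp only [mem_filter, mem_univ, true_and] at hj ⊢
    exact hj.trans hii'
  · have := hA i; omega

lemma pts_lt {n : ℕ} (A : Fin n → ℕ) (L M u : ℕ) (g : Fin n → ℕ) (hu : u < L)
    (hg : ∀ j, g j < A j) (hM : ∀ j, A j ≤ M) (i : Fin n) :
    pts A u g i < L + n * (2 * M) := by
  unfold pts
  have : ∑ j ∈ univ.filter (fun j : Fin n => j < i), (A j + g j) ≤ n * (2 * M) := by
    refine (sum_le_card_nsmul _ _ (2 * M) fun j _ => ?_).trans ?_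
    · have := hg j; have := hM j; omega
    · rw [smul_eq_mul]
      refine Nat.mul_le_mul_right _ ?_
      exact (card_filter_le _ _).trans (by simp)
  omega

/-- The law of a sub-tuple is close to the canonical one of the scales at its own indices. -/
lemma pts_sub_close {n m : ℕ} (Q L M : ℕ) (hQ : 0 < Q) (A : Fin n → ℕ) (hA : ∀ j, 0 < A j)
    (hdec : ∀ i j, i < j → Q * A j ≤ A i) (hM : ∀ j, A j ≤ M) (hL : Q * M ≤ L) (hLpos : 0 < L)
    (I : Fin (m + 1) → Fin n) (hI : StrictMono I) (h : (Fin (m + 1) → ℕ) → ℝ)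
    (hh : ∀ z, |h z| ≤ 1) :
    |(∑ p ∈ range L ×ˢ box A, h (pts A p.1 p.2 ∘ I)) / ((L : ℝ) * (box A).card)
        - canon L (fun l => A (I l.castSucc)) h| ≤ 4 * n * (m + 1) / Q := by
  classical
  set c : Fin m → Fin n := fun l => I l.castSucc with hc
  have hcinj : Function.Injective c := fun a b e => Fin.castSucc_injective _ (hI.injective e)
  set a : Fin m → ℕ := fun l => A (c l) with ha
  set O : Finset (Fin n → ℕ) :=
    Fintype.piFinset fun j => if ∃ l, c l = j then {0} else range (A j) with hO
  have hbox : ∀ j, (j ∈ univ.filter fun j : Fin n => ∃ l, c l = j) ↔ ∃ l, c l = j := by simp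
  -- splitting the gap variables
  have hsplit : ∀ F : (Fin n → ℕ) → ℝ,
      ∑ g ∈ box A, F g = ∑ o ∈ O, ∑ v ∈ box a, F (Function.extend c v o) := by
    intro F
    rw [← sum_product']
    refine sum_nbij' (fun g => (fun j => if ∃ l, c l = j then 0 else g j, fun l => g (c l)))
      (fun p => Function.extend c p.2 p.1) ?_ ?_ ?_ ?_ ?_
    · intro g hg
      simp only [box, Fintype.mem_piFinset, mem_range] at hg
      simp only [mem_product, hO, box, Fintype.mem_piFinset]
      refine ⟨fun j => ?_, fun l => by simpa [ha] using hg (c l)⟩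
      split_ifs <;> simp [hg]
    · intro p hp
      simp only [mem_product, hO, box, Fintype.mem_piFinset] at hp
      simp only [box, Fintype.mem_piFinset, mem_range]
      intro j
      by_cases hj : ∃ l, c l = j
      · obtain ⟨l, rfl⟩ := hj
        rw [hcinj.extend_apply]
        simpa [ha] using hp.2 l
      · rw [Function.extend_apply' _ _ _ hj]
        simpa [hj] using hp.1 j
    · intro g _
      funext j
      by_cases hj : ∃ l, c l = j
      · obtain ⟨l, rfl⟩ := hj
        rw [hcinj.extend_apply]
      · rw [Function.extend_apply' _ _ _ hj]; simp [hj]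
    · intro p hp
      simp only [mem_product, hO, Fintype.mem_piFinset] at hp
      refine Prod.ext (funext fun j => ?_) (funext fun l => hcinj.extend_apply _ _ _)
      show (if ∃ l, c l = j then 0 else Function.extend c p.2 p.1 j) = p.1 j
      by_cases hj : ∃ l, c l = j
      · have := hp.1 j
        simp [hj] at this
        simp [hj, this]
      · simp [hj]
    · intro g _
      congr 1
      funext j
      by_cases hj : ∃ l, c l = j
      · obtain ⟨l, rfl⟩ := hj
        rw [hcinj.extend_apply]
      · rw [Function.extend_apply' _ _ _ hj]; simp [hj]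
  -- the unselected gaps act as translations of the selected variables
  set T : (Fin n → ℕ) → Fin (m + 1) → ℕ := fun o k =>
    ∑ j ∈ univ.filter (fun j : Fin n => j < I k ∧ ¬ ∃ l, c l = j), (A j + o j) with hT
  set s : (Fin n → ℕ) → Fin (m + 1) → ℕ := fun o =>
    Fin.cons (T o 0) (fun l => T o l.succ - T o l.castSucc) with hs
  have hTmono : ∀ o (l : Fin m), T o l.castSucc ≤ T o l.succ := by
    intro o l
    refine sum_le_sum_of_subset fun j hj => ?_
    simp only [mem_filter, mem_univ, true_and] at hj ⊢
    exact ⟨hj.1.trans (hI Fin.castSucc_lt_succ), hj.2⟩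
  have hTtel : ∀ o (k : Fin (m + 1)),
      T o 0 + ∑ l ∈ univ.filter (fun l : Fin m => l.val < k.val),
        (T o l.succ - T o l.castSucc) = T o k := by
    intro o k
    induction k using Fin.induction with
    | zero => simp
    | succ i ih =>
        have hins : univ.filter (fun l : Fin m => l.val < i.succ.val)
            = insert i (univ.filter (fun l : Fin m => l.val < i.castSucc.val)) := by
          ext l; simp [Fin.val_succ, Fin.ext_iff]; omega
        rw [hins, sum_insert (by simp)]
        have := hTmono o i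
        omega
  have hpts : ∀ u o, o ∈ O → ∀ v, pts A u (Function.extend c v o) ∘ I
      = cum a (fun k => (Fin.cons u v : Fin (m + 1) → ℕ) k + s o k) := by
    intro u o _ v
    funext k
    simp only [Function.comp, pts, cum, hs, Fin.cons_zero, Fin.cons_succ]
    rw [← sum_filter_add_sum_filter_not (univ.filter fun j : Fin n => j < I k)
      (fun j => ∃ l, c l = j)]
    rw [filter_filter, filter_filter]
    have e1 : ∑ j ∈ univ.filter (fun j : Fin n => j < I k ∧ ¬ ∃ l, c l = j),
        (A j + Function.extend c v o j) = T o k := by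
      refine sum_congr rfl fun j hj => ?_
      simp only [mem_filter, mem_univ, true_and] at hj
      rw [Function.extend_apply' _ _ _ hj.2]
    have e2 : ∑ j ∈ univ.filter (fun j : Fin n => j < I k ∧ ∃ l, c l = j),
        (A j + Function.extend c v o j)
        = ∑ l ∈ univ.filter (fun l : Fin m => l.val < k.val), (a l + v l) := by
      have himg : univ.filter (fun j : Fin n => j < I k ∧ ∃ l, c l = j)
          = (univ.filter (fun l : Fin m => l.val < k.val)).image c := by
        ext j
        simp only [mem_filter, mem_univ, true_and, mem_image]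
        constructor
        · rintro ⟨hjk, l, rfl⟩
          exact ⟨l, by simpa [Fin.lt_def] using hI.lt_iff_lt.1 hjk, rfl⟩
        · rintro ⟨l, hl, rfl⟩
          exact ⟨hI (by simpa [Fin.lt_def] using hl), l, rfl⟩
      rw [himg, sum_image fun x _ y _ e => hcinj e]
      exact sum_congr rfl fun l _ => by rw [hcinj.extend_apply]
    rw [e1, e2]
    have := hTtel o k
    simp only [sum_add_distrib] at *
    omega
  -- bounds on the translations
  have hsbound : ∀ o ∈ O, ∀ k, (s o k : ℝ) / (Fin.cons L a : Fin (m + 1) → ℕ) k ≤ 2 * n / Q := by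
    intro o ho k
    simp only [hO, Fintype.mem_piFinset] at ho
    have hoj : ∀ j, A j + o j ≤ 2 * A j := by
      intro j
      have := ho j
      have := hA j
      split_ifs at * <;> simp_all <;> omega
    have key : ∀ (S : Finset (Fin n)) (B : ℕ), 0 < B → (∀ j ∈ S, Q * A j ≤ B) →
        ((∑ j ∈ S, (A j + o j) : ℕ) : ℝ) / B ≤ 2 * n / Q := by
      intro S B hB hS
      have h1 : Q * ∑ j ∈ S, (A j + o j) ≤ 2 * n * B := by
        rw [mul_sum]
        refine (sum_le_card_nsmul _ _ (2 * B) fun j hj => ?_).trans ?_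
        · have := hS j hj; have := hoj j; nlinarith
        · rw [smul_eq_mul]
          have := card_le_univ S
          simp at this
          nlinarith
      rw [div_le_div_iff₀ (by exact_mod_cast hB) (by exact_mod_cast hQ)]
      have : ((Q * ∑ j ∈ S, (A j + o j) : ℕ) : ℝ) ≤ ((2 * n * B : ℕ) : ℝ) := by exact_mod_cast h1
      push_cast at this ⊢
      linarith
    refine Fin.cases ?_ ?_ k
    · simp only [hs, hT, Fin.cons_zero]
      exact key _ L hLpos fun j _ => (Nat.mul_le_mul_left Q (hM j)).trans hL
    · intro l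
      simp only [hs, Fin.cons_succ]
      have e : T o l.succ - T o l.castSucc = ∑ j ∈ (univ.filter fun j : Fin n =>
          j < I l.succ ∧ ¬ ∃ l, c l = j) \ (univ.filter fun j : Fin n =>
          j < I l.castSucc ∧ ¬ ∃ l, c l = j), (A j + o j) := by
        simp only [hT]
        rw [← sum_sdiff (s₁ := univ.filter fun j : Fin n => j < I l.castSucc ∧ ¬ ∃ l, c l = j)
          (s₂ := univ.filter fun j : Fin n => j < I l.succ ∧ ¬ ∃ l, c l = j)]
        · simp
        · intro j hj
          simp only [mem_filter, mem_univ, true_and] at hj ⊢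
          exact ⟨hj.1.trans (hI Fin.castSucc_lt_succ), hj.2⟩
      rw [e]
      refine key _ (a l) (hA _) fun j hj => ?_
      simp only [mem_sdiff, mem_filter, mem_univ, true_and] at hj
      obtain ⟨⟨-, hjc⟩, hj2⟩ := hj
      have hle : c l ≤ j := not_lt.1 fun hlt => hj2 ⟨hlt, hjc⟩
      exact hdec _ _ (lt_of_le_of_ne hle fun e => hjc ⟨l, e⟩)
  -- assembling
  have hbc : box (Fin.cons L a : Fin (m + 1) → ℕ) = box (Fin.cons L a) := rfl
  have hcons : ∀ F : (Fin (m + 1) → ℕ) → ℝ, ∑ z ∈ box (Fin.cons L a), F z
      = ∑ u ∈ range L, ∑ v ∈ box a, F (Fin.cons u v) := by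
    intro F
    rw [sum_box_cons]
    simp [Fin.tail_cons]
  have htotal : ∑ p ∈ range L ×ˢ box A, h (pts A p.1 p.2 ∘ I)
      = ∑ o ∈ O, ∑ z ∈ box (Fin.cons L a), h (cum a (fun k => z k + s o k)) := by
    rw [sum_product]
    simp only [hcons]
    rw [sum_congr rfl fun u _ => hsplit (fun g => h (pts A u g ∘ I)), sum_comm]
    refine sum_congr rfl fun o ho => sum_congr rfl fun u _ => sum_congr rfl fun v _ => ?_
    rw [hpts u o ho v]
  have hcard : ((box A).card : ℝ) = O.card * (box a).card := by
    have := hsplit fun _ => 1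
    simpa using this
  have hCL : ((box (Fin.cons L a)).card : ℝ) = L * (box a).card := by
    simpa using hcons fun _ => 1
  set C : ℝ := ((box (Fin.cons L a)).card : ℝ) with hC
  have hapos : ∀ k, 0 < (Fin.cons L a : Fin (m + 1) → ℕ) k := by
    intro k; refine Fin.cases ?_ ?_ k <;> simp [hLpos, ha, hA]
  have hCpos : 0 < C := by
    rw [hC, card_box]; exact_mod_cast prod_pos fun k _ => hapos k
  have hOpos : (0:ℝ) < O.card := by
    have : 0 < O.card := card_pos.2 ⟨fun _ => 0, by
      simp only [hO, Fintype.mem_piFinset]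
      intro j; split_ifs <;> simp [hA]⟩
    exact_mod_cast this
  have hdenom : (L : ℝ) * (box A).card = O.card * C := by rw [hcard, hCL]; ring
  have hcanon : canon L a h = (∑ o ∈ O, ∑ z ∈ box (Fin.cons L a), h (cum a z)) / (O.card * C) := by
    rw [canon, sum_const, nsmul_eq_mul, mul_div_mul_left _ _ hOpos.ne']
  show |_ - canon L a h| ≤ _
  rw [htotal, hdenom, hcanon, ← sub_div, abs_div, abs_of_pos (mul_pos hOpos hCpos),
    div_le_iff₀ (mul_pos hOpos hCpos), ← sum_sub_distrib]
  refine (abs_sum_le_sum_abs _ _).trans ?_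
  have hb : ∀ o ∈ O, |∑ z ∈ box (Fin.cons L a), h (cum a (fun k => z k + s o k))
      - ∑ z ∈ box (Fin.cons L a), h (cum a z)| ≤ C * ((m + 1) * (2 * (2 * n / Q))) := by
    intro o ho
    refine (shift_box _ hapos (s o) (fun z => h (cum a z)) fun z => hh _).trans
      (mul_le_mul_of_nonneg_left ?_ (by positivity))
    have hk : ∀ k ∈ (univ : Finset (Fin (m + 1))),
        2 * (s o k : ℝ) / (Fin.cons L a : Fin (m+1) → ℕ) k ≤ 2 * (2 * n / Q) := fun k _ => by
      rw [mul_div_assoc]; linarith [hsbound o ho k]
    refine (sum_le_sum hk).trans_eq ?_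
    rw [sum_const, card_univ, Fintype.card_fin, nsmul_eq_mul]
    push_cast
    ring
  refine (sum_le_sum hb).trans_eq ?_
  rw [sum_const, nsmul_eq_mul]
  ring

/-- Spreadable laws exist for all lengths, orders and tolerances. -/
theorem exists_spreadLaw : ∀ (m n : ℕ) (ε : ℝ), 0 < ε → SpreadLaw n m ε := by
  intro m
  induction m with
  | zero =>
      intro n ε hε
      refine ⟨n, Unit, inferInstance, fun _ => 1, fun _ i => i.val, fun _ => zero_le_one, by simp,
        fun _ => Fin.val_strictMono, fun _ i => i.isLt, ?_⟩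
      intro I J _ _ h _
      have : I = J := funext fun a => a.elim0
      simp [this, hε.le]
  | succ m ih =>
      intro n ε hε
      classical
      obtain ⟨W, Γ, hΓ, w, X, hw, hw1, hX, hXW, hclose⟩ := ih n (ε / 2) (by positivity)
      obtain ⟨Q₀, hQ₀⟩ := exists_nat_gt (16 * (n : ℝ) * (m + 1) / ε)
      set Q := Q₀ + 2 with hQdef
      have hQpos : 0 < Q := by omega
      set M := Q ^ W with hMdef
      set L := Q * M with hLdef
      let A : Γ → Fin n → ℕ := fun c i => Q ^ (W - X c i)
      have hApos : ∀ c i, 0 < A c i := fun c i => pow_pos hQpos _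
      have hAM : ∀ c i, A c i ≤ M := fun c i => Nat.pow_le_pow_right hQpos (Nat.sub_le _ _)
      have hdec : ∀ c i j, i < j → Q * A c j ≤ A c i := by
        intro c i j hij
        show Q * Q ^ (W - X c j) ≤ Q ^ (W - X c i)
        rw [← pow_succ']
        have := hX c hij
        have := hXW c j
        exact Nat.pow_le_pow_right hQpos (by omega)
      have hLpos : 0 < L := Nat.mul_pos hQpos (pow_pos hQpos _)
      let w' : (Σ c, ↥(range L ×ˢ box (A c))) → ℝ := fun p =>
        w p.1 / ((L : ℝ) * (box (A p.1)).card)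
      let X' : (Σ c, ↥(range L ×ˢ box (A c))) → Fin n → ℕ := fun p =>
        pts (A p.1) p.2.1.1 p.2.1.2
      have hsum : ∀ F : (c : Γ) → ℕ × (Fin n → ℕ) → ℝ, ∑ p, w' p * F p.1 p.2.1
          = ∑ c, w c * ((∑ q ∈ range L ×ˢ box (A c), F c q) / ((L : ℝ) * (box (A c)).card)) := by
        intro F
        rw [Fintype.sum_sigma]
        refine sum_congr rfl fun c _ => ?_
        simp only [w']
        rw [← mul_sum, ← sum_coe_sort (range L ×ˢ box (A c))]
        ring
      refine ⟨L + n * (2 * M), Σ c, ↥(range L ×ˢ box (A c)), inferInstance, w', X',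
        fun p => div_nonneg (hw _) (by positivity), ?_, fun p => strictMono_pts _ (hApos _) _ _,
        ?_, ?_⟩
      · have := hsum fun _ _ => 1
        simp only [mul_one] at this
        rw [this]
        refine (sum_congr rfl fun c _ => ?_).trans hw1
        have hpos : (0:ℝ) < (L : ℝ) * (box (A c)).card := by
          refine mul_pos (by exact_mod_cast hLpos) ?_
          rw [card_box]; exact_mod_cast prod_pos fun i _ => hApos c i
        rw [sum_const, card_product, card_range, nsmul_eq_mul, mul_one]
        push_cast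
        rw [div_self hpos.ne', mul_one]
      · intro p i
        have hp := p.2.2
        simp only [mem_product, mem_range, box, Fintype.mem_piFinset] at hp
        exact pts_lt _ L M _ _ hp.1 hp.2 (hAM _) i
      · intro I J hI hJ h hh
        let H : (Fin m → ℕ) → ℝ := fun d => canon L (fun l => Q ^ (W - d l)) h
        have hmid := hclose (fun l => I l.castSucc) (fun l => J l.castSucc)
          (fun a b hab => hI (Fin.castSucc_lt_castSucc_iff.2 hab))
          (fun a b hab => hJ (Fin.castSucc_lt_castSucc_iff.2 hab)) H (fun z => abs_canon_le _ _ h hh)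
        have happ : ∀ K : Fin (m + 1) → Fin n, StrictMono K →
            |∑ p, w' p * h (X' p ∘ K) - ∑ c, w c * H (X c ∘ fun l => K l.castSucc)|
              ≤ 4 * n * (m + 1) / Q := by
          intro K hK
          have e := hsum fun c q => h (pts (A c) q.1 q.2 ∘ K)
          rw [e, ← sum_sub_distrib]
          refine (abs_sum_le_sum_abs _ _).trans ?_
          have hb : ∀ c ∈ (univ : Finset Γ),
              |w c * ((∑ q ∈ range L ×ˢ box (A c), h (pts (A c) q.1 q.2 ∘ K))
                  / ((L : ℝ) * (box (A c)).card)) - w c * H (X c ∘ fun l => K l.castSucc)|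
                ≤ w c * (4 * n * (m + 1) / Q) := by
            intro c _
            rw [← mul_sub, abs_mul, abs_of_nonneg (hw c)]
            exact mul_le_mul_of_nonneg_left (pts_sub_close Q L M hQpos (A c) (hApos c) (hdec c)
              (hAM c) le_rfl hLpos K hK h hh) (hw c)
          refine (sum_le_sum hb).trans ?_
          rw [← sum_mul, hw1, one_mul]
        have hsmall : 4 * (n:ℝ) * (m + 1) / Q ≤ ε / 4 := by
          have hQr : (Q₀ : ℝ) < Q := by exact_mod_cast (show Q₀ < Q by omega)
          have h1 : 16 * (n:ℝ) * (m + 1) < ε * Q := by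
            have := (div_lt_iff₀ hε).1 hQ₀
            nlinarith
          rw [div_le_iff₀ (by exact_mod_cast hQpos)]
          linarith
        have h1 := happ I hI
        have h2 := happ J hJ
        rw [abs_le] at hmid h1 h2 ⊢
        constructor <;> linarith

end Vale.Agent.P125
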