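import Vale.Agent.P125.Bush
import Vale.Agent.P125.Spread

/-!
From separated sequences in a space of Markov type `p` to a spreading, block-invariant seminorm of
Markov type `p` on finitely supported sequences.
-/

namespace Vale.Agent.P125

open Finset Filter Topology

/-- Finitely supported real sequences. -/
abbrev Vec := ℕ →₀ ℝ

/-- The unit vectors. -/
noncomputable def unitVec (i : ℕ) : Vec := Finsupp.single i 1

/-- The `ℓ_1` norm. -/
noncomputable def ell (c : Vec) : ℝ := ∑ i ∈ c.support, |c i|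

/-- Every index is replaced by the average of a block of `T` consecutive indices. -/
noncomputable def blk (T : ℕ) : Vec →ₗ[ℝ] Vec :=
  Finsupp.linearCombination ℝ fun i => (T : ℝ)⁻¹ • ∑ l ∈ range T, unitVec (T * i + l)

/-- The Markov type inequality for a seminorm on `Vec`. -/
def VecMarkov (N : Vec → ℝ) (p K : ℝ) : Prop :=
  ∀ (S : Type) [Fintype S] [DecidableEq S] (π : S → ℝ) (P : Matrix S S ℝ),
    (∀ i, 0 ≤ π i) → (∀ i j, 0 ≤ P i j) → (∀ i, ∑ j, P i j = 1) → (∑ i, π i = 1) →
    (∀ i j, π i * P i j = π j * P j i) →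
    ∀ (f : S → Vec) (t : ℕ), 1 ≤ t →
      ∑ i, ∑ j, π i * (P ^ t) i j * N (f j - f i) ^ p
        ≤ K ^ p * (t : ℝ) * ∑ i, ∑ j, π i * P i j * N (f j - f i) ^ p

/-- A spreading, block-invariant seminorm of Markov type `p` with separated unit vectors. -/
structure IsModel (N : Seminorm ℝ Vec) (p K θ : ℝ) : Prop where
  le_one : ∀ i, N (unitVec i) ≤ 1
  spread : ∀ σ : ℕ → ℕ, StrictMono σ → ∀ c, N (Finsupp.mapDomain σ c) = N c
  block : ∀ T, 1 ≤ T → ∀ c, N (blk T c) = N c
  sep : θ ≤ N (unitVec 1 - unitVec 0)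
  markov : VecMarkov N p K

lemma ell_nonneg (c : Vec) : 0 ≤ ell c := sum_nonneg fun _ _ => abs_nonneg _

section stage

variable {X : Type*} [NormedAddCommGroup X] [NormedSpace ℝ X] {Z : Type} [Fintype Z]
  (w : Z → ℝ) (G : ℕ → Z → X) (p : ℝ)

/-- The vector of `X` coded by a sequence at a point. -/
noncomputable def evalVec (z : Z) : Vec →ₗ[ℝ] X := Finsupp.linearCombination ℝ fun i => G i z

/-- The `L_p` norm of the combination coded by a sequence. -/
noncomputable def stageNorm (c : Vec) : ℝ := (∑ z, w z * ‖evalVec G z c‖ ^ p) ^ p⁻¹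

variable {w G p}

omit [Fintype Z] in
lemma norm_evalVec_le (hG : ∀ i z, ‖G i z‖ ≤ 1) (z : Z) (c : Vec) :
    ‖evalVec G z c‖ ≤ ell c := by
  rw [evalVec, Finsupp.linearCombination_apply, Finsupp.sum]
  refine (norm_sum_le _ _).trans (sum_le_sum fun i _ => ?_)
  rw [norm_smul, Real.norm_eq_abs]
  exact (mul_le_mul_of_nonneg_left (hG i z) (abs_nonneg _)).trans (mul_one _).le

lemma stageNorm_nonneg (hw : ∀ z, 0 ≤ w z) (c : Vec) : 0 ≤ stageNorm w G p c :=
  Real.rpow_nonneg (sum_nonneg fun z _ => mul_nonneg (hw z) (by positivity)) _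

lemma stageNorm_rpow (hw : ∀ z, 0 ≤ w z) (hp : 0 < p) (c : Vec) :
    stageNorm w G p c ^ p = ∑ z, w z * ‖evalVec G z c‖ ^ p := by
  rw [stageNorm, Real.rpow_inv_rpow _ hp.ne']
  exact sum_nonneg fun z _ => mul_nonneg (hw z) (by positivity)

lemma stageNorm_le (hw : ∀ z, 0 ≤ w z) (hw1 : ∑ z, w z = 1) (hG : ∀ i z, ‖G i z‖ ≤ 1)
    (hp : 0 < p) (c : Vec) : stageNorm w G p c ≤ ell c := by
  rw [← Real.rpow_le_rpow_iff (stageNorm_nonneg hw c) (ell_nonneg c) hp, stageNorm_rpow hw hp]
  calc ∑ z, w z * ‖evalVec G z c‖ ^ p ≤ ∑ z, w z * ell c ^ p :=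
        sum_le_sum fun z _ => mul_le_mul_of_nonneg_left
          (Real.rpow_le_rpow (norm_nonneg _) (norm_evalVec_le hG z c) hp.le) (hw z)
    _ = ell c ^ p := by rw [← sum_mul, hw1, one_mul]

lemma stageNorm_add (hw : ∀ z, 0 ≤ w z) (hp : 1 ≤ p) (c d : Vec) :
    stageNorm w G p (c + d) ≤ stageNorm w G p c + stageNorm w G p d := by
  have hp0 : 0 < p := by linarith
  have e : ∀ x : Vec, ∑ z, w z * ‖evalVec G z x‖ ^ p
      = ∑ z, (w z ^ p⁻¹ * ‖evalVec G z x‖) ^ p := fun x => sum_congr rfl fun z _ => by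
    rw [Real.mul_rpow (Real.rpow_nonneg (hw z) _) (norm_nonneg _),
      Real.rpow_inv_rpow (hw z) hp0.ne']
  simp only [stageNorm, e]
  have h := Real.Lp_add_le_of_nonneg (s := univ) hp
    (f := fun z => w z ^ p⁻¹ * ‖evalVec G z c‖) (g := fun z => w z ^ p⁻¹ * ‖evalVec G z d‖)
    (fun z _ => mul_nonneg (Real.rpow_nonneg (hw z) _) (norm_nonneg _))
    (fun z _ => mul_nonneg (Real.rpow_nonneg (hw z) _) (norm_nonneg _))
  rw [one_div] at h
  refine le_trans ?_ h
  refine Real.rpow_le_rpow (sum_nonneg fun z _ => ?_) (sum_le_sum fun z _ => ?_) (by positivity)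
  · exact Real.rpow_nonneg (mul_nonneg (Real.rpow_nonneg (hw z) _) (norm_nonneg _)) _
  · refine Real.rpow_le_rpow (mul_nonneg (Real.rpow_nonneg (hw z) _) (norm_nonneg _)) ?_ hp0.le
    rw [← mul_add, map_add]
    exact mul_le_mul_of_nonneg_left (norm_add_le _ _) (Real.rpow_nonneg (hw z) _)

lemma stageNorm_smul (hw : ∀ z, 0 ≤ w z) (hp : 0 < p) (r : ℝ) (c : Vec) :
    stageNorm w G p (r • c) = |r| * stageNorm w G p c := by
  refine (Real.rpow_left_inj (stageNorm_nonneg hw _)
    (mul_nonneg (abs_nonneg _) (stageNorm_nonneg hw _)) hp.ne').1 ?_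
  rw [Real.mul_rpow (abs_nonneg _) (stageNorm_nonneg hw _), stageNorm_rpow hw hp,
    stageNorm_rpow hw hp, mul_sum]
  refine sum_congr rfl fun z _ => ?_
  rw [map_smul, norm_smul, Real.norm_eq_abs, Real.mul_rpow (abs_nonneg _) (norm_nonneg _)]
  ring

lemma stageNorm_markov (hw : ∀ z, 0 ≤ w z) (hp : 0 < p) {K : ℝ}
    (hX : HasMarkovTypeWith X p K) : VecMarkov (stageNorm w G p) p K := by
  intro S _ _ π P hπ hP hP1 hπ1 hrev f t ht
  have e : ∀ A : S → S → ℝ, ∑ i, ∑ j, A i j * stageNorm w G p (f j - f i) ^ p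
      = ∑ z, w z * ∑ i, ∑ j, A i j * ‖evalVec G z (f j) - evalVec G z (f i)‖ ^ p := by
    intro A
    simp only [stageNorm_rpow hw hp, map_sub, mul_sum]
    rw [sum_comm (s := (univ : Finset Z))]
    refine sum_congr rfl fun i _ => ?_
    rw [sum_comm]
    exact sum_congr rfl fun j _ => sum_congr rfl fun z _ => by ring
  rw [e fun i j => π i * (P ^ t) i j, e fun i j => π i * P i j, mul_sum]
  refine sum_le_sum fun z _ => ?_
  calc w z * _ ≤ w z * (K ^ p * (t : ℝ) * ∑ i, ∑ j,
        π i * P i j * ‖evalVec G z (f j) - evalVec G z (f i)‖ ^ p) :=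
        mul_le_mul_of_nonneg_left (hX S π P hπ hP hP1 hπ1 hrev (fun i => evalVec G z (f i)) t ht)
          (hw z)
    _ = _ := by ring

end stage

/-- The finite stages: bounded, nearly spreading, separated. -/
lemma exists_stage {X : Type*} [NormedAddCommGroup X] [NormedSpace ℝ X] {θ p : ℝ} (hp : 1 ≤ p)
    (hsep : ∀ k : ℕ, ∃ (Ω : Type) (_ : Fintype Ω) (w : Ω → ℝ) (F : ℕ → Ω → X),
      (∀ o, 0 ≤ w o) ∧ ∑ o, w o = 1 ∧ (∀ i ≤ k, ∀ o, ‖F i o‖ ≤ 1) ∧
      ∀ j, 1 ≤ j → j ≤ k → ∀ a b : ℕ → ℝ, (∀ i, 0 ≤ a i) → ∑ i ∈ Finset.range j, a i = 1 →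
        (∀ i, 0 ≤ b i) → ∑ i ∈ Finset.Icc j k, b i = 1 →
        θ ≤ ∑ o, w o *
          ‖(∑ i ∈ Finset.Icc j k, b i • F i o) - ∑ i ∈ Finset.range j, a i • F i o‖) (k : ℕ) :
    ∃ (Z : Type) (_ : Fintype Z) (w : Z → ℝ) (G : ℕ → Z → X),
      (∀ z, 0 ≤ w z) ∧ ∑ z, w z = 1 ∧ (∀ i z, ‖G i z‖ ≤ 1) ∧
      (∀ σ : ℕ → ℕ, StrictMono σ → ∀ c : Vec,
        (∀ i ∈ c.support, i < k ∧ σ i < k) →
        |∑ z, w z * ‖evalVec G z (Finsupp.mapDomain σ c)‖ ^ p
          - ∑ z, w z * ‖evalVec G z c‖ ^ p| ≤ (ell c + 1) ^ p / (k + 1)) ∧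
      (∀ T, 1 ≤ T → 2 * T ≤ k →
        θ ≤ stageNorm w G p (blk T (unitVec 1 - unitVec 0))) := by
  classical
  have hp0 : 0 < p := by linarith
  obtain ⟨W, Γ, hΓ, v, Y, hv, hv1, hY, hYW, hclose⟩ :=
    exists_spreadLaw k (2 * k) (1 / ((k : ℝ) + 1)) (by positivity)
  obtain ⟨Ω, hΩ, w, F, hw, hw1, hF, hFsep⟩ := hsep W
  let F' : ℕ → Ω → X := fun i o => if i ≤ W then F i o else 0
  have hF' : ∀ i o, ‖F' i o‖ ≤ 1 := by
    intro i o
    by_cases hi : i ≤ W <;> simp [F', hi, hF]
  let G : ℕ → Ω × Γ → X := fun i z => if hi : i < 2 * k then F' (Y z.2 ⟨i, hi⟩) z.1 else 0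
  have hG : ∀ i z, ‖G i z‖ ≤ 1 := by
    intro i z
    by_cases hi : i < 2 * k <;> simp [G, hi, hF']
  have hsum1 : ∑ z : Ω × Γ, w z.1 * v z.2 = 1 := by
    rw [Fintype.sum_prod_type, ← sum_mul_sum, hw1, hv1, one_mul]
  refine ⟨Ω × Γ, inferInstance, fun z => w z.1 * v z.2, G, fun z => mul_nonneg (hw _) (hv _),
    hsum1, hG, ?_, ?_⟩
  · intro σ hσ c hc
    set r := c.support.card with hr
    set en : Fin r ↪o ℕ := c.support.orderEmbOfFin hr.symm with hen
    have hmem : ∀ a, en a ∈ c.support := fun a => orderEmbOfFin_mem _ _ a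
    have hrk : r ≤ k := by
      have : c.support ⊆ range k := fun i hi => mem_range.2 (hc i hi).1
      simpa using card_le_card this
    -- the two index tuples
    let I : (Fin r → ℕ) → Fin k → ℕ := fun g a => if h : a.val < r then g ⟨a, h⟩ else k + a.val
    have hImono : ∀ g : Fin r → ℕ, StrictMono g → (∀ a, g a < k) →
        StrictMono (I g) ∧ ∀ a, I g a < 2 * k := by
      intro g hg hgk
      refine ⟨fun a b hab => ?_, fun a => ?_⟩
      · have hab' : a.val < b.val := hab
        simp only [I]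
        split_ifs with h1 h2 h2
        · exact hg hab'
        · have := hgk ⟨a, h1⟩; omega
        · omega
        · omega
      · simp only [I]
        split_ifs with h1
        · have := hgk ⟨a, h1⟩; omega
        · omega
    have hen1 := hImono (fun a => en a) en.strictMono fun a => (hc _ (hmem a)).1
    have hen2 := hImono (fun a => σ (en a)) (hσ.comp en.strictMono) fun a => (hc _ (hmem a)).2
    set D : ℝ := (ell c + 1) ^ p with hD
    have hD0 : 0 < D := Real.rpow_pos_of_pos (by linarith [ell_nonneg c]) _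
    let h : (Fin k → ℕ) → ℝ := fun y =>
      (∑ o, w o * ‖∑ a : Fin r, c (en a) • F' (y (Fin.castLE hrk a)) o‖ ^ p) / D
    have hbound : ∀ y, |h y| ≤ 1 := by
      intro y
      have h0 : 0 ≤ h y :=
        div_nonneg (sum_nonneg fun o _ => mul_nonneg (hw o) (by positivity)) hD0.le
      rw [abs_of_nonneg h0, div_le_one hD0]
      calc _ ≤ ∑ o, w o * D := sum_le_sum fun o _ => mul_le_mul_of_nonneg_left (by
              refine Real.rpow_le_rpow (norm_nonneg _) ?_ hp0.le
              calc ‖∑ a : Fin r, c (en a) • F' (y (Fin.castLE hrk a)) o‖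
                  ≤ ∑ a : Fin r, |c (en a)| := (norm_sum_le _ _).trans (sum_le_sum fun a _ => by
                    rw [norm_smul, Real.norm_eq_abs]
                    exact (mul_le_mul_of_nonneg_left (hF' _ o) (abs_nonneg _)).trans (mul_one _).le)
                _ = ell c := by
                    rw [ell, ← map_orderEmbOfFin_univ c.support hr.symm, sum_map]
                    rfl
                _ ≤ ell c + 1 := by linarith) (hw o)
        _ = D := by rw [← sum_mul, hw1, one_mul]
    have hh := hclose (fun a => ⟨I (fun a => σ (en a)) a, hen2.2 a⟩)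
      (fun a => ⟨I (fun a => en a) a, hen1.2 a⟩) (fun a b hab => hen2.1 hab)
      (fun a b hab => hen1.1 hab) h hbound
    have key : ∀ (g : Fin r → ℕ) (hg : ∀ a, g a < k) (hI : ∀ a, I g a < 2 * k) (d : Vec),
        (∀ z : Ω × Γ, evalVec G z d = ∑ a, c (en a) • G (g a) z) →
        ∑ z : Ω × Γ, w z.1 * v z.2 * ‖evalVec G z d‖ ^ p
          = D * ∑ γ, v γ * h (Y γ ∘ fun a => ⟨I g a, hI a⟩) := by
      intro g hg hI d hd
      rw [Fintype.sum_prod_type, sum_comm, mul_sum]
      refine sum_congr rfl fun γ _ => ?_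
      simp only [h, Function.comp]
      rw [mul_comm D, mul_assoc, div_mul_cancel₀ _ hD0.ne', mul_sum]
      refine sum_congr rfl fun o _ => ?_
      rw [hd]
      have : ∀ a, G (g a) (o, γ)
          = F' (Y γ ⟨I g (Fin.castLE hrk a), hI _⟩) o := by
        intro a
        have h2 : g a < 2 * k := by have := hg a; omega
        simp only [G, h2, dite_true]
        congr 2
        apply Fin.ext
        simp [I]
      simp only [this]
      ring
    have hd1 : ∀ z : Ω × Γ, evalVec G z c = ∑ a, c (en a) • G (en a) z := by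
      intro z
      rw [evalVec, Finsupp.linearCombination_apply, Finsupp.sum,
        ← map_orderEmbOfFin_univ c.support hr.symm, sum_map]
      rfl
    have hd2 : ∀ z : Ω × Γ, evalVec G z (Finsupp.mapDomain σ c)
        = ∑ a, c (en a) • G (σ (en a)) z := by
      intro z
      rw [evalVec, Finsupp.linearCombination_mapDomain, Finsupp.linearCombination_apply,
        Finsupp.sum, ← map_orderEmbOfFin_univ c.support hr.symm, sum_map]
      rfl
    rw [key _ (fun a => (hc _ (hmem a)).2) hen2.2 _ hd2,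
      key _ (fun a => (hc _ (hmem a)).1) hen1.2 _ hd1, ← mul_sub, abs_mul, abs_of_pos hD0,
      div_eq_mul_one_div]
    exact mul_le_mul_of_nonneg_left hh hD0.le
  · intro T hT hTk
    have hTr : (0 : ℝ) < T := by exact_mod_cast hT
    have hblk : blk T (unitVec 1 - unitVec 0)
        = (T : ℝ)⁻¹ • (∑ l ∈ range T, unitVec (T + l) - ∑ l ∈ range T, unitVec l) := by
      simp [blk, unitVec, Finsupp.linearCombination_single, smul_sub]
    have heval : ∀ z, evalVec G z (blk T (unitVec 1 - unitVec 0))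
        = (T : ℝ)⁻¹ • (∑ l ∈ range T, G (T + l) z - ∑ l ∈ range T, G l z) := by
      intro z
      rw [hblk]
      simp [evalVec, unitVec, Finsupp.linearCombination_single]
    have hmean : ∑ z : Ω × Γ, w z.1 * v z.2 * ‖evalVec G z (blk T (unitVec 1 - unitVec 0))‖
        ≤ stageNorm (fun z : Ω × Γ => w z.1 * v z.2) G p (blk T (unitVec 1 - unitVec 0)) := by
      rw [stageNorm, ← one_div]
      exact Real.arith_mean_le_rpow_mean univ _ _ (fun z _ => mul_nonneg (hw _) (hv _)) hsum1
        (fun z _ => norm_nonneg _) hp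
    refine le_trans ?_ hmean
    have hγ : ∀ γ, θ ≤ ∑ o, w o * ‖evalVec G (o, γ) (blk T (unitVec 1 - unitVec 0))‖ := by
      intro γ
      let y : ℕ → ℕ := fun i => if hi : i < 2 * k then Y γ ⟨i, hi⟩ else 0
      have hy : ∀ i i', i < i' → i' < 2 * k → y i < y i' := by
        intro i i' hii hi'
        simp only [y, show i < 2 * k by omega, hi', dite_true]
        exact hY γ hii
      have hyW : ∀ i, i < 2 * k → y i < W := by
        intro i hi
        simp only [y, hi, dite_true]
        exact hYW γ _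
      have hGy : ∀ i o, i < 2 * k → G i (o, γ) = F (y i) o := by
        intro i o hi
        simp only [G, F', y, hi, dite_true]
        rw [if_pos (hYW γ _).le]
      let a : ℕ → ℝ := fun q => ∑ l ∈ range T, if y l = q then (T : ℝ)⁻¹ else 0
      let b : ℕ → ℝ := fun q => ∑ l ∈ range T, if y (T + l) = q then (T : ℝ)⁻¹ else 0
      have h0 : ∀ (g : ℕ → ℕ) q, 0 ≤ ∑ l ∈ range T, if g l = q then (T : ℝ)⁻¹ else 0 :=
        fun g q => sum_nonneg fun l _ => by split_ifs <;> positivity
      have hpos : 1 ≤ y T := by have := hy (T - 1) T (by omega) (by omega); omega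
      have hain : ∀ l ∈ range T, y l ∈ range (y T) := fun l hl =>
        mem_range.2 (hy l T (mem_range.1 hl) (by omega))
      have hbin : ∀ l ∈ range T, y (T + l) ∈ Icc (y T) W := by
        intro l hl
        have hl' := mem_range.1 hl
        refine mem_Icc.2 ⟨?_, (hyW _ (by omega)).le⟩
        rcases Nat.eq_zero_or_pos l with h0 | h0
        · simp [h0]
        · exact (hy T (T + l) (by omega) (by omega)).le
      have hT1 : ∑ _l ∈ range T, (T : ℝ)⁻¹ = 1 := by
        rw [sum_const, card_range, nsmul_eq_mul, mul_inv_cancel₀ hTr.ne']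
      have := hFsep (y T) hpos (hyW T (by omega)).le a b (h0 y)
        (by
          simp only [a]
          rw [sum_comm, ← hT1]
          exact sum_congr rfl fun l hl => by rw [sum_ite_eq, if_pos (hain l hl)])
        (h0 fun l => y (T + l))
        (by
          simp only [b]
          rw [sum_comm, ← hT1]
          exact sum_congr rfl fun l hl => by rw [sum_ite_eq, if_pos (hbin l hl)])
      refine this.trans_eq (sum_congr rfl fun o _ => ?_)
      rw [heval, smul_sub, smul_sum, smul_sum]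
      congr 3
      · simp only [b, sum_smul, ite_smul, zero_smul]
        rw [sum_comm]
        refine sum_congr rfl fun l hl => ?_
        rw [sum_ite_eq, if_pos (hbin l hl), hGy _ o (by have := mem_range.1 hl; omega)]
      · simp only [a, sum_smul, ite_smul, zero_smul]
        rw [sum_comm]
        refine sum_congr rfl fun l hl => ?_
        rw [sum_ite_eq, if_pos (hain l hl), hGy _ o (by have := mem_range.1 hl; omega)]
    calc θ = ∑ γ, v γ * θ := by rw [← sum_mul, hv1, one_mul]
      _ ≤ ∑ γ, v γ * ∑ o, w o * ‖evalVec G (o, γ) (blk T (unitVec 1 - unitVec 0))‖ :=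
          sum_le_sum fun γ _ => mul_le_mul_of_nonneg_left (hγ γ) (hv γ)
      _ = _ := by
          rw [Fintype.sum_prod_type, sum_comm]
          exact sum_congr rfl fun γ _ => by
            rw [mul_sum]; exact sum_congr rfl fun o _ => by ring

lemma blk_single (T i : ℕ) (r : ℝ) :
    blk T (Finsupp.single i r) = r • ((T : ℝ)⁻¹ • ∑ l ∈ range T, unitVec (T * i + l)) := by
  simp [blk, Finsupp.linearCombination_single]

lemma sum_range_mul' {M : Type*} [AddCommMonoid M] (s t : ℕ) (f : ℕ → M) :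
    ∑ q ∈ range (t * s), f q = ∑ l ∈ range t, ∑ m ∈ range s, f (s * l + m) := by
  induction t with
  | zero => simp
  | succ t ih =>
      rw [Nat.succ_mul, sum_range_add, ih, sum_range_succ]
      simp [mul_comm s t]

lemma blk_blk (s t : ℕ) (c : Vec) : blk s (blk t c) = blk (t * s) c := by
  induction c using Finsupp.induction_linear with
  | zero => simp
  | add a b ha hb => simp [ha, hb]
  | single i r =>
      simp only [blk_single, map_smul, map_sum, unitVec, one_smul]
      congr 1
      rw [← smul_sum, smul_smul, sum_range_mul' s t, Nat.cast_mul, mul_inv]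
      congr 1
      refine sum_congr rfl fun l _ => sum_congr rfl fun m _ => ?_
      congr 1
      ring

/-- The relabelling of `ℕ` induced on blocks. -/
def blockMap (T : ℕ) (σ : ℕ → ℕ) (q : ℕ) : ℕ := T * σ (q / T) + q % T

lemma strictMono_blockMap {T : ℕ} (hT : 0 < T) {σ : ℕ → ℕ} (hσ : StrictMono σ) :
    StrictMono (blockMap T σ) := by
  intro q q' h
  unfold blockMap
  rcases (Nat.div_le_div_right h.le : q / T ≤ q' / T).lt_or_eq with hd | hd
  · have h1 := hσ hd
    have := Nat.mod_lt q hT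
    have h2 : T * (σ (q / T) + 1) ≤ T * σ (q' / T) := Nat.mul_le_mul_left T h1
    rw [Nat.mul_add, Nat.mul_one] at h2
    omega
  · rw [hd]
    have := Nat.div_add_mod q T
    have := Nat.div_add_mod q' T
    rw [hd] at *
    omega

lemma blk_mapDomain {T : ℕ} (hT : 0 < T) (σ : ℕ → ℕ) (c : Vec) :
    blk T (Finsupp.mapDomain σ c) = Finsupp.mapDomain (blockMap T σ) (blk T c) := by
  induction c using Finsupp.induction_linear with
  | zero => simp
  | add a b ha hb => simp [Finsupp.mapDomain_add, ha, hb]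
  | single i r =>
      rw [Finsupp.mapDomain_single, blk_single, blk_single, Finsupp.mapDomain_smul,
        Finsupp.mapDomain_smul, Finsupp.mapDomain_finsetSum]
      congr 2
      refine sum_congr rfl fun l hl => ?_
      rw [unitVec, unitVec, Finsupp.mapDomain_single, blockMap]
      have hl' := mem_range.1 hl
      rw [Nat.mul_add_div hT, Nat.div_eq_of_lt hl', Nat.add_zero, Nat.mul_add_mod,
        Nat.mod_eq_of_lt hl']

lemma vecMarkov_tendsto {l : Filter ℕ} [l.NeBot] {Nk : ℕ → Vec → ℝ} {N : Vec → ℝ} {p K : ℝ}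
    (hp : 0 ≤ p) (hlim : ∀ c, Tendsto (fun k => Nk k c) l (𝓝 (N c)))
    (hk : ∀ k, VecMarkov (Nk k) p K) : VecMarkov N p K := by
  intro S _ _ π P hπ hP hP1 hπ1 hrev f t ht
  have e : ∀ A : S → S → ℝ, Tendsto (fun k => ∑ i, ∑ j, A i j * Nk k (f j - f i) ^ p) l
      (𝓝 (∑ i, ∑ j, A i j * N (f j - f i) ^ p)) := fun A =>
    tendsto_finsetSum _ fun i _ => tendsto_finsetSum _ fun j _ =>
      ((hlim _).rpow_const (Or.inr hp)).const_mul _
  exact le_of_tendsto_of_tendsto' (e fun i j => π i * (P ^ t) i j)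
    ((e fun i j => π i * P i j).const_mul _)
    fun k => hk k S π P hπ hP hP1 hπ1 hrev f t ht

/-- Separated sequences in a space of Markov type `p` give a model seminorm. -/
theorem exists_model {X : Type*} [NormedAddCommGroup X] [NormedSpace ℝ X] {θ p K : ℝ}
    (hp : 1 ≤ p) (hX : HasMarkovTypeWith X p K)
    (hsep : ∀ k : ℕ, ∃ (Ω : Type) (_ : Fintype Ω) (w : Ω → ℝ) (F : ℕ → Ω → X),
      (∀ o, 0 ≤ w o) ∧ ∑ o, w o = 1 ∧ (∀ i ≤ k, ∀ o, ‖F i o‖ ≤ 1) ∧
      ∀ j, 1 ≤ j → j ≤ k → ∀ a b : ℕ → ℝ, (∀ i, 0 ≤ a i) → ∑ i ∈ Finset.range j, a i = 1 →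
        (∀ i, 0 ≤ b i) → ∑ i ∈ Finset.Icc j k, b i = 1 →
        θ ≤ ∑ o, w o *
          ‖(∑ i ∈ Finset.Icc j k, b i • F i o) - ∑ i ∈ Finset.range j, a i • F i o‖) :
    ∃ N : Seminorm ℝ Vec, IsModel N p K θ := by
  classical
  have hp0 : 0 < p := by linarith
  choose Z hZ w G hw hw1 hG hspread hsepk using exists_stage hp hsep
  let Nk : ℕ → Vec → ℝ := fun k c => stageNorm (w k) (G k) p c
  let U : Ultrafilter ℕ := Ultrafilter.of atTop
  have hex : ∀ c : Vec, ∃ x, Tendsto (fun k => Nk k c) U (𝓝 x) := by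
    intro c
    obtain ⟨x, -, hx⟩ := (isCompact_Icc (a := 0) (b := ell c)).ultrafilter_le_nhds
      (U.map fun k => Nk k c) (by
        rw [Ultrafilter.coe_map, le_principal_iff, Filter.mem_map]
        exact Eventually.of_forall fun k =>
          ⟨stageNorm_nonneg (hw k) c, stageNorm_le (hw k) (hw1 k) (hG k) hp0 c⟩)
    exact ⟨x, by simpa [Tendsto] using hx⟩
  choose N hN using hex
  have hU : ∀ {P : ℕ → Prop}, (∀ᶠ k in atTop, P k) → ∀ᶠ k in (U : Filter ℕ), P k :=
    fun h => h.filter_mono (Ultrafilter.of_le _)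
  have hN0 : ∀ c, 0 ≤ N c := fun c =>
    ge_of_tendsto' (hN c) fun k => stageNorm_nonneg (hw k) c
  have hNadd : ∀ c d, N (c + d) ≤ N c + N d := fun c d =>
    le_of_tendsto_of_tendsto' (hN _) ((hN c).add (hN d)) fun k => stageNorm_add (hw k) hp c d
  have hNsmul : ∀ (r : ℝ) c, N (r • c) = |r| * N c := fun r c =>
    tendsto_nhds_unique ((hN (r • c)).congr fun k => stageNorm_smul (hw k) hp0 r c)
      ((hN c).const_mul _)
  have hNspread : ∀ σ : ℕ → ℕ, StrictMono σ → ∀ c, N (Finsupp.mapDomain σ c) = N c := by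
    intro σ hσ c
    have h1 := (hN (Finsupp.mapDomain σ c)).rpow_const (p := p) (Or.inr hp0.le)
    have h2 := (hN c).rpow_const (p := p) (Or.inr hp0.le)
    have h3 : Tendsto (fun k => Nk k (Finsupp.mapDomain σ c) ^ p - Nk k c ^ p) U (𝓝 0) := by
      rw [tendsto_zero_iff_abs_tendsto_zero]
      refine squeeze_zero' (g := fun k : ℕ => (ell c + 1) ^ p / ((k : ℝ) + 1))
        (Eventually.of_forall fun k => abs_nonneg _) ?_ ?_
      · apply hU
        filter_upwards [eventually_gt_atTop ((c.support.sup id) + σ (c.support.sup id))] with k hk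
        simp only [Nk, Function.comp, stageNorm_rpow (hw k) hp0]
        refine hspread k σ hσ c fun i hi => ?_
        have h1 : i ≤ c.support.sup id := le_sup (f := id) hi
        have h2 := hσ.monotone h1
        constructor <;> omega
      · refine Tendsto.mono_left ?_ (Ultrafilter.of_le _)
        exact Tendsto.div_atTop tendsto_const_nhds
          (tendsto_atTop_add_const_right _ _ tendsto_natCast_atTop_atTop)
    have := tendsto_nhds_unique (h1.sub h2) h3
    exact (Real.rpow_left_inj (hN0 _) (hN0 _) hp0.ne').1 (by linarith)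
  have hNunit : ∀ i, N (unitVec i) ≤ 1 := fun i => by
    refine le_of_tendsto' (hN _) fun k => (stageNorm_le (hw k) (hw1 k) (hG k) hp0 _).trans ?_
    simp [ell, unitVec]
  have hNsep : ∀ T, 1 ≤ T → θ ≤ N (blk T (unitVec 1 - unitVec 0)) := fun T hT =>
    ge_of_tendsto (hN _) (hU ((eventually_ge_atTop (2 * T)).mono fun k hk => hsepk k T hT hk))
  have hNsum : ∀ (m : ℕ) (g : ℕ → Vec), N (∑ l ∈ range m, g l) ≤ ∑ l ∈ range m, N (g l) :=
    fun m g => le_sum_of_subadditive N (by simpa using (hNsmul 0 0).le) hNadd _ _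
  -- refining blocks decreases the norm
  have hmono : ∀ T s, 0 < T → 0 < s → ∀ c, N (blk (T * s) c) ≤ N (blk T c) := by
    intro T s hT hs c
    have hsr : (0 : ℝ) < s := by exact_mod_cast hs
    rw [mul_comm, ← blk_blk T s c]
    have hdec : blk s c = (s : ℝ)⁻¹ • ∑ l ∈ range s, Finsupp.mapDomain (fun i => s * i + l) c := by
      induction c using Finsupp.induction_linear with
      | zero => simp
      | add a b ha hb => simp [ha, hb, Finsupp.mapDomain_add, sum_add_distrib, smul_add]
      | single i r =>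
          rw [blk_single, smul_comm, smul_sum]
          congr 1
          refine sum_congr rfl fun l _ => ?_
          simp [unitVec, Finsupp.mapDomain_single]
    rw [hdec, map_smul, map_sum, hNsmul, abs_of_nonneg (by positivity)]
    have h1 : ∀ l ∈ range s,
        N (blk T (Finsupp.mapDomain (fun i => s * i + l) c)) = N (blk T c) := by
      intro l _
      rw [blk_mapDomain hT, hNspread _ (strictMono_blockMap hT fun a b hab => by
        show s * a + l < s * b + l
        nlinarith)]
    calc (s : ℝ)⁻¹ * N (∑ l ∈ range s, blk T (Finsupp.mapDomain (fun i => s * i + l) c))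
        ≤ (s : ℝ)⁻¹ * ∑ l ∈ range s, N (blk T c) :=
          mul_le_mul_of_nonneg_left ((hNsum _ _).trans (sum_le_sum fun l hl => (h1 l hl).le))
            (by positivity)
      _ = N (blk T c) := by
          rw [sum_const, card_range, nsmul_eq_mul]; field_simp
  let M : Vec → ℝ := fun c => ⨅ T : ℕ, N (blk (T + 1) c)
  have hbdd : ∀ c, BddBelow (Set.range fun T : ℕ => N (blk (T + 1) c)) := fun c =>
    ⟨0, by rintro _ ⟨T, rfl⟩; exact hN0 _⟩
  have hMle : ∀ c T, 0 < T → M c ≤ N (blk T c) := fun c T hT => by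
    have := ciInf_le (hbdd c) (T - 1)
    rwa [show T - 1 + 1 = T by omega] at this
  have hMadd : ∀ c d, M (c + d) ≤ M c + M d := by
    intro c d
    refine le_ciInf_add_ciInf fun S T => ?_
    refine (hMle _ ((S + 1) * (T + 1)) (by positivity)).trans ?_
    rw [map_add]
    refine (hNadd _ _).trans (add_le_add (hmono _ _ (by omega) (by omega) c) ?_)
    rw [mul_comm]
    exact hmono _ _ (by omega) (by omega) d
  have hMsmul : ∀ (r : ℝ) c, M (r • c) = |r| * M c := by
    intro r c
    simp only [M, map_smul, hNsmul]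
    exact (Real.mul_iInf_of_nonneg (abs_nonneg r) _).symm
  refine ⟨Seminorm.of M hMadd fun r c => by rw [Real.norm_eq_abs]; exact hMsmul r c, ?_⟩
  refine ⟨fun i => ?_, fun σ hσ c => ?_, fun t ht c => ?_, le_ciInf fun T => hNsep _ (by omega),
    ?_⟩
  · refine (hMle _ 1 one_pos).trans ?_
    simpa [blk, unitVec, Finsupp.linearCombination_single] using hNunit i
  · show M _ = M _
    simp only [M]
    exact congrArg _ (funext fun T => by
      rw [blk_mapDomain T.succ_pos, hNspread _ (strictMono_blockMap T.succ_pos hσ)])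
  · refine le_antisymm (le_ciInf fun T => ?_) (le_ciInf fun T => ?_)
    · refine (hMle _ (T + 1) (by omega)).trans ?_
      rw [blk_blk, mul_comm]
      exact hmono _ _ (by omega) (by omega) c
    · rw [blk_blk]
      exact hMle _ _ (Nat.mul_pos (by omega) (by omega))
  · show VecMarkov M p K
    refine vecMarkov_tendsto (l := atTop) (Nk := fun j c => N (blk j.factorial c)) hp0.le
      (fun c => ?_) fun j => ?_
    · rw [Metric.tendsto_atTop]
      intro δ hδ
      obtain ⟨T, hT⟩ := exists_lt_of_ciInf_lt (show M c < M c + δ by linarith)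
      refine ⟨T + 1, fun j hj => ?_⟩
      obtain ⟨s, hs⟩ := Nat.dvd_factorial (show 0 < T + 1 by omega) hj
      have hs0 : 0 < s := by
        have := Nat.factorial_pos j
        rcases Nat.eq_zero_or_pos s with h0 | h0
        · rw [h0, mul_zero] at hs; omega
        · exact h0
      have h1 := hMle c j.factorial (Nat.factorial_pos j)
      have h2 : N (blk j.factorial c) ≤ N (blk (T + 1) c) := by
        rw [hs]; exact hmono _ _ (by omega) hs0 c
      rw [Real.dist_eq, abs_lt]
      constructor <;> linarith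
    · have hNM : VecMarkov N p K :=
        vecMarkov_tendsto (l := (U : Filter ℕ)) hp0.le hN fun k =>
          stageNorm_markov (hw k) hp0 hX
      intro S _ _ π P hπ hP hP1 hπ1 hrev f t ht
      have := hNM S π P hπ hP hP1 hπ1 hrev (fun i => blk j.factorial (f i)) t ht
      simpa only [map_sub] using this

end Vale.Agent.P125
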