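import Vale.Agent.P125.Defs

/-!
Renorming: if, for every `ε`, the iterated slice derivation of the unit ball reaches the
empty set, then the space has an equivalent uniformly convex norm.
-/

namespace Vale.Agent.P125

open Metric Set
open scoped Pointwise Topology

variable {X : Type*} [NormedAddCommGroup X] [NormedSpace ℝ X]

/-- Points all of whose open slices of `C` have diameter more than `ε`. -/
def der (ε : ℝ) (C : Set X) : Set X :=
  {x | x ∈ C ∧ ∀ (φ : X →L[ℝ] ℝ) (α : ℝ), α < φ x →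
    ∃ u ∈ C, ∃ v ∈ C, α < φ u ∧ α < φ v ∧ ε < ‖u - v‖}

/-- Iterated derivation of the closed unit ball. -/
def derN (ε : ℝ) : ℕ → Set X
  | 0 => closedBall 0 1
  | n + 1 => der ε (derN ε n)

lemma der_subset (ε : ℝ) (C : Set X) : der ε C ⊆ C := fun _ h => h.1

lemma derN_subset_ball (ε : ℝ) : ∀ n, (derN ε n : Set X) ⊆ closedBall 0 1
  | 0 => subset_rfl
  | n + 1 => (der_subset ε _).trans (derN_subset_ball ε n)

lemma convex_der {ε : ℝ} {C : Set X} (hC : Convex ℝ C) : Convex ℝ (der ε C) := by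
  intro x hx y hy a b ha hb hab
  refine ⟨hC hx.1 hy.1 ha hb hab, fun φ α hα => ?_⟩
  have : α < φ x ∨ α < φ y := by
    by_contra h
    push Not at h
    have e : φ (a • x + b • y) = a * φ x + b * φ y := by simp
    have h1 : a * φ x ≤ a * α := mul_le_mul_of_nonneg_left h.1 ha
    have h2 : b * φ y ≤ b * α := mul_le_mul_of_nonneg_left h.2 hb
    have h3 : a * α + b * α = α := by rw [← add_mul, hab, one_mul]
    linarith
  rcases this with h | h
  · exact hx.2 φ α h
  · exact hy.2 φ α h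

lemma isClosed_der {ε : ℝ} {C : Set X} (hC : IsClosed C) : IsClosed (der ε C) := by
  have : der ε C = C ∩ ⋂ (φ : X →L[ℝ] ℝ) (α : ℝ)
      (_ : ¬ ∃ u ∈ C, ∃ v ∈ C, α < φ u ∧ α < φ v ∧ ε < ‖u - v‖), {x | φ x ≤ α} := by
    ext x
    simp only [der, mem_inter_iff, mem_iInter, mem_ofPred_eq]
    constructor
    · rintro ⟨hx, h⟩
      exact ⟨hx, fun φ α hno => not_lt.1 fun hlt => hno (h φ α hlt)⟩
    · rintro ⟨hx, h⟩
      refine ⟨hx, fun φ α hlt => ?_⟩
      by_contra hno
      exact absurd (h φ α hno) (not_le.2 hlt)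
  rw [this]
  refine hC.inter ?_
  refine isClosed_iInter fun φ => isClosed_iInter fun α => isClosed_iInter fun _ => ?_
  exact isClosed_le φ.continuous continuous_const

lemma neg_mem_der {ε : ℝ} {C : Set X} (hC : ∀ z ∈ C, -z ∈ C) {x : X} (hx : x ∈ der ε C) :
    -x ∈ der ε C := by
  refine ⟨hC x hx.1, fun φ α hα => ?_⟩
  obtain ⟨u, hu, v, hv, h1, h2, h3⟩ := hx.2 (-φ) α (by simpa using hα)
  refine ⟨-u, hC u hu, -v, hC v hv, by simpa using h1, by simpa using h2, ?_⟩
  rw [← norm_neg]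
  simpa [neg_add_eq_sub] using h3

lemma derN_props (ε : ℝ) : ∀ n, Convex ℝ (derN ε n : Set X) ∧ IsClosed (derN ε n : Set X) ∧
    ∀ x ∈ (derN ε n : Set X), -x ∈ (derN ε n : Set X)
  | 0 => ⟨convex_closedBall 0 1, isClosed_closedBall, fun x hx => by simpa [derN] using hx⟩
  | n + 1 => ⟨convex_der (derN_props ε n).1, isClosed_der (derN_props ε n).2.1,
      fun _ hx => neg_mem_der (derN_props ε n).2.2 hx⟩

lemma zero_mem_derN {ε : ℝ} {n : ℕ} (h : (derN ε n : Set X).Nonempty) :
    (0 : X) ∈ (derN ε n : Set X) := by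
  obtain ⟨x, hx⟩ := h
  have := (derN_props ε n).1 hx ((derN_props ε n).2.2 x hx) (by norm_num : (0:ℝ) ≤ 1/2)
    (by norm_num : (0:ℝ) ≤ 1/2) (by norm_num)
  simpa using this

lemma midpoint_mem_der {ε : ℝ} {C : Set X} (hC : Convex ℝ C) {x y : X} (hx : x ∈ C)
    (hy : y ∈ C) (hxy : 2 * ε < ‖x - y‖) : (2 : ℝ)⁻¹ • (x + y) ∈ der ε C := by
  set m := (2 : ℝ)⁻¹ • (x + y) with hm
  have hmC : m ∈ C := by
    rw [hm, smul_add]
    exact hC hx hy (by norm_num) (by norm_num) (by norm_num)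
  refine ⟨hmC, fun φ α hα => ?_⟩
  have hφ : φ m = 2⁻¹ * (φ x + φ y) := by simp [hm, mul_add]
  have e1 : x - m = (2 : ℝ)⁻¹ • (x - y) := by rw [hm]; module
  have e2 : y - m = (2 : ℝ)⁻¹ • (y - x) := by rw [hm]; module
  have key : ∀ z w : X, z - m = (2:ℝ)⁻¹ • (z - w) → ‖z - m‖ = ‖z - w‖ / 2 := by
    intro z w e
    rw [e, norm_smul]; simp; ring
  by_cases h : α < φ x
  · refine ⟨x, hx, m, hmC, h, hα, ?_⟩
    rw [key x y e1]; linarith
  · have h' : α < φ y := by
      push Not at h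
      linarith
    refine ⟨y, hy, m, hmC, h', hα, ?_⟩
    rw [key y x e2, norm_sub_rev]; linarith

/-- Distance to the derived sets, summed over the steps before extinction. -/
noncomputable def Fsum (ε : ℝ) (N : ℕ) (x : X) : ℝ :=
  ∑ n ∈ Finset.range N, infDist x (derN ε n : Set X)

lemma infDist_mid_le {s : Set X} (hs : Convex ℝ s) (x y : X) :
    infDist ((2 : ℝ)⁻¹ • (x + y)) s ≤ 2⁻¹ * (infDist x s + infDist y s) := by
  rcases s.eq_empty_or_nonempty with rfl | hne
  · simp
  refine le_of_forall_pos_le_add fun η hη => ?_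
  obtain ⟨x', hx', hdx⟩ := (infDist_lt_iff hne).1 (lt_add_of_pos_right (infDist x s) hη)
  obtain ⟨y', hy', hdy⟩ := (infDist_lt_iff hne).1 (lt_add_of_pos_right (infDist y s) hη)
  have hm : (2 : ℝ)⁻¹ • (x' + y') ∈ s := by
    rw [smul_add]; exact hs hx' hy' (by norm_num) (by norm_num) (by norm_num)
  refine (infDist_le_dist_of_mem hm).trans ?_
  rw [dist_smul₀]
  have := dist_add_add_le x y x' y'
  simp only [Real.norm_eq_abs]
  rw [abs_of_pos (by norm_num : (0:ℝ) < 2⁻¹)]
  linarith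

lemma Fsum_mid_le (ε : ℝ) (N : ℕ) (x y : X) :
    Fsum ε N ((2 : ℝ)⁻¹ • (x + y)) ≤ 2⁻¹ * (Fsum ε N x + Fsum ε N y) := by
  rw [Fsum, Fsum, Fsum, ← Finset.sum_add_distrib, Finset.mul_sum]
  exact Finset.sum_le_sum fun n _ => infDist_mid_le (derN_props ε n).1 x y

/-- The gain at midpoints of separated pairs in the unit ball. -/
lemma Fsum_gain {ε : ℝ} (hε : 0 < ε) {N : ℕ} (hN : 1 ≤ N)
    (hne : ∀ n < N, (derN ε n : Set X).Nonempty) (hempty : (derN ε N : Set X) = ∅)
    {x y : X} (hx : ‖x‖ ≤ 1) (hy : ‖y‖ ≤ 1) (hxy : 3 * ε ≤ ‖x - y‖) :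
    Fsum ε N ((2 : ℝ)⁻¹ • (x + y)) ≤ 2⁻¹ * (Fsum ε N x + Fsum ε N y) - ε / (16 * 2 ^ N) := by
  by_contra hcon
  push Not at hcon
  set γ := ε / (16 * 2 ^ N) with hγdef
  have hγ : 0 < γ := by positivity
  set m := (2 : ℝ)⁻¹ • (x + y) with hm
  have hterm : ∀ n < N,
      2⁻¹ * (infDist x (derN ε n : Set X) + infDist y (derN ε n : Set X))
        - infDist m (derN ε n : Set X) < γ := by
    intro n hn
    have hle : 2⁻¹ * (infDist x (derN ε n : Set X) + infDist y (derN ε n : Set X))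
        - infDist m (derN ε n : Set X) ≤ ∑ k ∈ Finset.range N,
        (2⁻¹ * (infDist x (derN ε k : Set X) + infDist y (derN ε k : Set X))
          - infDist m (derN ε k : Set X)) :=
      Finset.single_le_sum (f := fun k => 2⁻¹ * (infDist x (derN ε k : Set X)
          + infDist y (derN ε k : Set X)) - infDist m (derN ε k : Set X))
        (fun k _ => sub_nonneg.2 (infDist_mid_le (derN_props ε k).1 x y))
        (Finset.mem_range.2 hn)
    refine lt_of_le_of_lt hle ?_
    rw [Finset.sum_sub_distrib, ← Finset.mul_sum, Finset.sum_add_distrib]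
    simp only [Fsum] at hcon
    linarith
  have hstep : ∀ n, n < N →
      infDist x (derN ε n : Set X) ≤ 4 * γ * (2 ^ n - 1) ∧
      infDist y (derN ε n : Set X) ≤ 4 * γ * (2 ^ n - 1) →
      ∃ z ∈ (derN ε (n+1) : Set X), dist m z ≤ 4 * γ * (2 ^ n - 1) + γ := by
    intro n hn ⟨h1, h2⟩
    obtain ⟨x', hx', hdx⟩ := (infDist_lt_iff (hne n hn)).1
      (lt_add_of_le_of_pos h1 hγ)
    obtain ⟨y', hy', hdy⟩ := (infDist_lt_iff (hne n hn)).1
      (lt_add_of_le_of_pos h2 hγ)
    have hsmall : 4 * γ * (2 ^ n - 1) + γ ≤ ε / 4 := by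
      have h2n : (2 : ℝ) ^ n ≤ 2 ^ N := pow_le_pow_right₀ (by norm_num) hn.le
      have e : γ * (16 * 2 ^ N) = ε := by rw [hγdef]; field_simp
      nlinarith
    have hsep : 2 * ε < ‖x' - y'‖ := by
      rw [← dist_eq_norm] at hxy ⊢
      have := dist_triangle4 x x' y' y
      rw [dist_comm y' y] at this
      linarith
    refine ⟨(2 : ℝ)⁻¹ • (x' + y'), midpoint_mem_der (derN_props ε n).1 hx' hy' hsep, ?_⟩
    rw [hm, dist_smul₀]
    have := dist_add_add_le x y x' y'
    simp only [Real.norm_eq_abs]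
    rw [abs_of_pos (by norm_num : (0:ℝ) < 2⁻¹)]
    linarith
  have hall : ∀ n < N, infDist x (derN ε n : Set X) ≤ 4 * γ * (2 ^ n - 1) ∧
      infDist y (derN ε n : Set X) ≤ 4 * γ * (2 ^ n - 1) := by
    intro n
    induction n with
    | zero =>
        intro _
        constructor <;>
        · rw [infDist_zero_of_mem (by simpa [derN] using ‹_›)]; simp
    | succ n ih =>
        intro hn
        have hn' : n < N := Nat.lt_of_succ_lt hn
        obtain ⟨z, hz, hdz⟩ := hstep n hn' (ih hn')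
        have h1 := (infDist_le_dist_of_mem (x := m) hz).trans hdz
        have h2 := hterm (n + 1) hn
        have n1 := infDist_nonneg (x := x) (s := (derN ε (n+1) : Set X))
        have n2 := infDist_nonneg (x := y) (s := (derN ε (n+1) : Set X))
        rw [pow_succ]
        constructor <;> nlinarith
  obtain ⟨z, hz, -⟩ := hstep (N - 1) (by omega) (hall (N - 1) (by omega))
  rw [show N - 1 + 1 = N by omega, hempty] at hz
  exact hz

omit [NormedSpace ℝ X] in
lemma infDist_lipschitz_bound {s : Set X} (x y : X) :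
    infDist x s - infDist y s ≤ ‖x - y‖ := by
  have := infDist_le_infDist_add_dist (s := s) (x := x) (y := y)
  rw [dist_eq_norm] at this
  linarith

variable (X) in
/-- The data produced by extinction of all derivations. -/
structure Extinction where
  /-- number of steps -/
  steps : ℕ → ℕ
  one_le : ∀ k : ℕ, 1 ≤ steps k
  nonempty : ∀ k : ℕ, ∀ n < steps k, (derN ((1:ℝ) / ((k : ℕ) + 1 : ℝ)) n : Set X).Nonempty
  empty : ∀ k : ℕ, (derN ((1:ℝ) / (k + 1)) (steps k) : Set X) = ∅

lemma exists_extinction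
    (h : ∀ ε : ℝ, 0 < ε → ∃ N, (derN ε N : Set X) = ∅) : Nonempty (Extinction X) := by
  classical
  have h' : ∀ k : ℕ, ∃ N, (derN ((1:ℝ) / (k + 1)) N : Set X) = ∅ :=
    fun k => h _ (by positivity)
  refine ⟨⟨fun k => Nat.find (h' k), fun k => ?_, fun k n hn => ?_, fun k => Nat.find_spec (h' k)⟩⟩
  · by_contra hc
    have h0 : Nat.find (h' k) = 0 := by omega
    have := Nat.find_spec (h' k)
    rw [h0] at this
    simp only [derN] at this
    have hmem : (0 : X) ∈ closedBall (0:X) 1 := mem_closedBall_self zero_le_one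
    rw [this] at hmem
    exact hmem
  · exact Set.nonempty_iff_ne_empty.2 (Nat.find_min (h' k) hn)

namespace Extinction

variable (E : Extinction X)

/-- The `k`-th normalised term. -/
noncomputable def term (k : ℕ) (x : X) : ℝ :=
  (1/2 : ℝ) ^ k / E.steps k * Fsum ((1:ℝ) / (k + 1)) (E.steps k) x

lemma term_nonneg (k : ℕ) (x : X) : 0 ≤ E.term k x := by
  unfold term Fsum
  exact mul_nonneg (by positivity) (Finset.sum_nonneg fun n _ => infDist_nonneg)

lemma term_zero (k : ℕ) : E.term k 0 = 0 := by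
  unfold term Fsum
  rw [Finset.sum_eq_zero fun n hn => ?_, mul_zero]
  exact infDist_zero_of_mem (zero_mem_derN (E.nonempty k n (Finset.mem_range.1 hn)))

lemma term_lip (k : ℕ) (x y : X) : E.term k x - E.term k y ≤ (1/2 : ℝ) ^ k * ‖x - y‖ := by
  have hs : (0:ℝ) < E.steps k := by exact_mod_cast E.one_le k
  unfold term Fsum
  rw [← mul_sub, ← Finset.sum_sub_distrib]
  calc (1/2 : ℝ) ^ k / E.steps k * ∑ n ∈ Finset.range (E.steps k),
        (infDist x (derN ((1:ℝ) / (k + 1)) n : Set X) - infDist y (derN ((1:ℝ) / (k + 1)) n : Set X))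
      ≤ (1/2 : ℝ) ^ k / E.steps k * ∑ _n ∈ Finset.range (E.steps k), ‖x - y‖ :=
        mul_le_mul_of_nonneg_left (Finset.sum_le_sum fun n _ => infDist_lipschitz_bound x y)
          (by positivity)
    _ = (1/2 : ℝ) ^ k * ‖x - y‖ := by
        rw [Finset.sum_const, Finset.card_range, nsmul_eq_mul]; field_simp

lemma term_le (k : ℕ) (x : X) : E.term k x ≤ (1/2 : ℝ) ^ k * ‖x‖ := by
  simpa [E.term_zero k] using E.term_lip k x 0

lemma summable (x : X) : Summable fun k => E.term k x :=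
  Summable.of_nonneg_of_le (fun k => E.term_nonneg k x) (fun k => E.term_le k x)
    (summable_geometric_two.mul_right ‖x‖)

lemma term_neg (k : ℕ) (x : X) : E.term k (-x) = E.term k x := by
  unfold term Fsum
  congr 1
  refine Finset.sum_congr rfl fun n _ => ?_
  have hs := (derN_props (X := X) ((1:ℝ) / (k + 1)) n).2.2
  have e : (fun z : X => -z) '' (derN ((1:ℝ) / (k + 1)) n : Set X)
      = (derN ((1:ℝ) / (k + 1)) n : Set X) := by
    ext z
    constructor
    · rintro ⟨w, hw, rfl⟩; exact hs w hw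
    · exact fun hz => ⟨-z, hs z hz, neg_neg z⟩
  conv_lhs => rw [← e]
  exact infDist_image (IsometryEquiv.neg X).isometry

/-- The convex function whose sublevel set is the new unit ball. -/
noncomputable def Phi (x : X) : ℝ := ‖x‖ + ∑' k, E.term k x

lemma norm_le_Phi (x : X) : ‖x‖ ≤ E.Phi x :=
  le_add_of_nonneg_right (tsum_nonneg fun k => E.term_nonneg k x)

lemma Phi_lip (x y : X) : E.Phi x - E.Phi y ≤ 3 * ‖x - y‖ := by
  unfold Phi
  have h1 : ∑' k, E.term k x - ∑' k, E.term k y ≤ 2 * ‖x - y‖ := by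
    rw [← (E.summable x).tsum_sub (E.summable y)]
    calc ∑' k, (E.term k x - E.term k y) ≤ ∑' k, (1/2 : ℝ) ^ k * ‖x - y‖ :=
          Summable.tsum_le_tsum (fun k => E.term_lip k x y)
            ((E.summable x).sub (E.summable y)) (summable_geometric_two.mul_right _)
      _ = 2 * ‖x - y‖ := by rw [tsum_mul_right, tsum_geometric_two]
  have := norm_sub_norm_le x y
  linarith

lemma Phi_zero : E.Phi 0 = 0 := by simp [Phi, E.term_zero]

lemma Phi_continuous : Continuous E.Phi := by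
  refine (LipschitzWith.of_le_add_mul 3 fun x y => ?_).continuous
  have := E.Phi_lip x y
  rw [dist_eq_norm]
  norm_num
  linarith

lemma Phi_neg (x : X) : E.Phi (-x) = E.Phi x := by
  simp [Phi, E.term_neg]

lemma Phi_convex : ConvexOn ℝ univ E.Phi := by
  unfold Phi
  refine convexOn_univ_norm.add ?_
  have hterm : ∀ k, ConvexOn ℝ univ (E.term k) := by
    intro k
    unfold term Fsum
    refine ConvexOn.smul (by positivity) ?_
    refine ⟨convex_univ, ?_⟩
    intro x _ y _ a b ha hb hab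
    simp only [smul_eq_mul, Finset.mul_sum, ← Finset.sum_add_distrib]
    refine Finset.sum_le_sum fun n hn => ?_
    have hC := (derN_props (X := X) ((1:ℝ) / (k + 1)) n).1
    have hne := E.nonempty k n (Finset.mem_range.1 hn)
    refine le_of_forall_pos_le_add fun η hη => ?_
    obtain ⟨x', hx', hdx⟩ := (infDist_lt_iff hne).1 (lt_add_of_pos_right
      (infDist x (derN ((1:ℝ) / (k + 1)) n : Set X)) hη)
    obtain ⟨y', hy', hdy⟩ := (infDist_lt_iff hne).1 (lt_add_of_pos_right
      (infDist y (derN ((1:ℝ) / (k + 1)) n : Set X)) hη)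
    refine (infDist_le_dist_of_mem (hC hx' hy' ha hb hab)).trans ?_
    refine (dist_add_add_le _ _ _ _).trans ?_
    rw [dist_smul₀, dist_smul₀, Real.norm_eq_abs, Real.norm_eq_abs, abs_of_nonneg ha,
      abs_of_nonneg hb]
    nlinarith
  refine ⟨convex_univ, fun x _ y _ a b ha hb hab => ?_⟩
  simp only [smul_eq_mul]
  rw [← tsum_mul_left, ← tsum_mul_left,
    ← ((E.summable x).mul_left a).tsum_add ((E.summable y).mul_left b)]
  exact Summable.tsum_le_tsum (fun k => (hterm k).2 trivial trivial ha hb hab) (E.summable _)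
    (((E.summable x).mul_left a).add ((E.summable y).mul_left b))

lemma Phi_gain (k : ℕ) {x y : X} (hx : ‖x‖ ≤ 1) (hy : ‖y‖ ≤ 1)
    (hxy : 3 * ((1:ℝ) / (k + 1)) ≤ ‖x - y‖) :
    E.Phi ((2 : ℝ)⁻¹ • (x + y)) ≤ 2⁻¹ * (E.Phi x + E.Phi y)
      - (1/2 : ℝ) ^ k / E.steps k * ((1:ℝ) / (k + 1) / (16 * 2 ^ E.steps k)) := by
  set g := (1/2 : ℝ) ^ k / E.steps k * ((1:ℝ) / (k + 1) / (16 * 2 ^ E.steps k)) with hg
  set m := (2 : ℝ)⁻¹ • (x + y) with hm
  have hn : ‖m‖ ≤ 2⁻¹ * (‖x‖ + ‖y‖) := by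
    rw [hm, norm_smul, Real.norm_eq_abs, abs_of_pos (by norm_num : (0:ℝ) < 2⁻¹)]
    linarith [norm_add_le x y]
  let d : ℕ → ℝ := fun j => 2⁻¹ * (E.term j x + E.term j y) - E.term j m
  have hd0 : ∀ j, 0 ≤ d j := fun j => by
    have := mul_le_mul_of_nonneg_left (Fsum_mid_le ((1:ℝ) / (j + 1)) (E.steps j) x y)
      (show (0:ℝ) ≤ (1/2 : ℝ) ^ j / E.steps j by positivity)
    simp only [d, term, hm]
    linarith
  have hdk : g ≤ d k := by
    have := mul_le_mul_of_nonneg_left (Fsum_gain (ε := (1:ℝ) / (k + 1)) (by positivity)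
      (E.one_le k) (E.nonempty k) (E.empty k) hx hy hxy)
      (show (0:ℝ) ≤ (1/2 : ℝ) ^ k / E.steps k by positivity)
    simp only [d, term, hg, hm]
    linarith
  have hds : Summable d := ((E.summable x).add (E.summable y)).mul_left _ |>.sub (E.summable m)
  have h1 : g ≤ ∑' j, d j := hdk.trans (hds.le_tsum k fun j _ => hd0 j)
  have h2 : ∑' j, d j
      = 2⁻¹ * (∑' j, E.term j x + ∑' j, E.term j y) - ∑' j, E.term j m := by
    simp only [d]
    rw [(((E.summable x).add (E.summable y)).mul_left _).tsum_sub (E.summable m),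
      tsum_mul_left, (E.summable x).tsum_add (E.summable y)]
  unfold Phi
  linarith

/-- The new unit ball. -/
def unitBall : Set X := {x | E.Phi x ≤ 1}

lemma convex_unitBall : Convex ℝ E.unitBall := by
  simpa [unitBall] using E.Phi_convex.convex_le 1

lemma closedBall_subset : closedBall (0:X) (1/3) ⊆ E.unitBall := by
  intro x hx
  have := E.Phi_lip x 0
  simp [E.Phi_zero] at this hx
  change E.Phi x ≤ 1
  linarith

lemma nhds_unitBall : E.unitBall ∈ 𝓝 (0:X) :=
  Filter.mem_of_superset (closedBall_mem_nhds 0 (by norm_num)) E.closedBall_subset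

lemma balanced_unitBall : Balanced ℝ E.unitBall := by
  rintro a ha _ ⟨x, hx, rfl⟩
  rw [Real.norm_eq_abs, abs_le] at ha
  have h0 : (0:X) ∈ E.unitBall := mem_of_mem_nhds E.nhds_unitBall
  have hn : -x ∈ E.unitBall := by
    show E.Phi (-x) ≤ 1
    rw [E.Phi_neg]; exact hx
  have := E.convex_unitBall hx hn (show (0:ℝ) ≤ (1 + a)/2 by linarith)
    (show (0:ℝ) ≤ (1 - a)/2 by linarith) (by ring)
  have e : ((1 + a)/2) • x + ((1 - a)/2) • (-x) = a • x := by module
  rwa [e] at this

/-- The new norm. -/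
noncomputable def newNorm : Seminorm ℝ X :=
  gaugeSeminorm E.balanced_unitBall E.convex_unitBall (absorbent_nhds_zero E.nhds_unitBall)

lemma newNorm_eq (x : X) : E.newNorm x = gauge E.unitBall x := rfl

lemma newNorm_equiv (x : X) : 1 * ‖x‖ ≤ E.newNorm x ∧ E.newNorm x ≤ 3 * ‖x‖ := by
  rw [newNorm_eq]
  constructor
  · have := le_gauge_of_subset_closedBall (absorbent_nhds_zero E.nhds_unitBall) zero_le_one
      (s := E.unitBall) (x := x) (fun z hz => by
        rw [mem_closedBall_zero_iff]; exact (E.norm_le_Phi z).trans hz)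
    simpa using this
  · refine (gauge_mono ((absorbent_nhds_zero (closedBall_mem_nhds 0 (by norm_num))))
      E.closedBall_subset x).trans ?_
    rw [gauge_closedBall (by norm_num)]
    linarith

lemma mem_of_newNorm_le {x : X} (h : E.newNorm x ≤ 1) : E.Phi x ≤ 1 := by
  rw [newNorm_eq, gauge_le_one_iff_mem_closure E.convex_unitBall E.nhds_unitBall] at h
  exact (isClosed_le E.Phi_continuous continuous_const).closure_subset h

lemma uniformlyConvex : ∀ ε : ℝ, 0 < ε → ε ≤ 2 → ∃ δ : ℝ, 0 < δ ∧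
    ∀ x y : X, E.newNorm x ≤ 1 → E.newNorm y ≤ 1 → ε ≤ E.newNorm (x - y) →
      E.newNorm ((2 : ℝ)⁻¹ • (x + y)) ≤ 1 - δ := by
  intro ε hε _
  obtain ⟨k, hk⟩ := exists_nat_one_div_lt (show 0 < ε / 9 by positivity)
  set g := (1/2 : ℝ) ^ k / E.steps k * ((1:ℝ) / (k + 1) / (16 * 2 ^ E.steps k)) with hg
  have hgpos : 0 < g := by
    have hs : (0:ℝ) < E.steps k := by exact_mod_cast E.one_le k
    positivity
  refine ⟨1 - 1 / (1 + g/3), sub_pos.2 ((div_lt_one (by positivity)).2 (by linarith)), ?_⟩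
  intro x y hx hy hxy
  have hx' := E.mem_of_newNorm_le hx
  have hy' := E.mem_of_newNorm_le hy
  have hd : 3 * ((1:ℝ) / (k + 1)) ≤ ‖x - y‖ := by
    have := (E.newNorm_equiv (x - y)).2
    linarith
  have hgain := E.Phi_gain k ((E.norm_le_Phi x).trans hx') ((E.norm_le_Phi y).trans hy') hd
  set m := (2 : ℝ)⁻¹ • (x + y) with hm
  have hmΦ : E.Phi m ≤ 1 - g := by linarith
  have hmn : ‖m‖ ≤ 1 := by linarith [E.norm_le_Phi m]
  have hs : (1 + g/3) • m ∈ E.unitBall := by
    have := E.Phi_lip ((1 + g/3) • m) m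
    have e : (1 + g/3) • m - m = (g/3) • m := by module
    rw [e, norm_smul, Real.norm_eq_abs, abs_of_pos (by positivity)] at this
    show E.Phi _ ≤ 1
    nlinarith [norm_nonneg m]
  have := gauge_le_one_of_mem hs
  rw [← newNorm_eq, map_smul_eq_mul, Real.norm_eq_abs, abs_of_pos (by positivity)] at this
  rw [sub_sub_cancel, le_div_iff₀ (by positivity)]
  linarith

end Extinction

/-- If every derivation dies out, there is an equivalent uniformly convex norm. -/
theorem renorm (h : ∀ ε : ℝ, 0 < ε → ∃ N, (derN ε N : Set X) = ∅) :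
    HasEquivUniformlyConvexNorm X := by
  obtain ⟨E⟩ := exists_extinction h
  exact ⟨E.newNorm, ⟨1, 3, one_pos, by norm_num, E.newNorm_equiv⟩, E.uniformlyConvex⟩

end Vale.Agent.P125
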