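import Vale.Agent.P125.Cube

/-!
Sums of signed alternating vectors that line up into monotone runs have large norm.
-/

namespace Vale.Agent.P125

open Finset

variable {N : Seminorm ℝ Vec} {p K θ : ℝ}

/-- The alternating vector carried by the points `x 0, …, x (2R-1)`. -/
noncomputable def altAt (R : ℕ) (x : ℕ → ℕ) : Vec :=
  ∑ k ∈ range (2 * R), (-1 : ℝ) ^ k • unitVec (x k)

/-- The sign attached to a direction. -/
def sgn (b : Bool) : ℝ := if b then 1 else -1

lemma IsModel.spread_range (hN : IsModel N p K θ) (n : ℕ) (x : ℕ → ℕ)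
    (hx : ∀ a b, a < b → b < n → x a < x b) (c : ℕ → ℝ) :
    N (∑ i ∈ range n, c i • unitVec (x i)) = N (∑ i ∈ range n, c i • unitVec i) := by
  let σ : ℕ → ℕ := fun i => if i < n then x i else (range n).sup x + 1 + i
  have hσ : StrictMono σ := by
    intro a b hab
    simp only [σ]
    split_ifs with h1 h2 h2
    · exact hx a b hab h2
    · have := le_sup (f := x) (mem_range.2 h1)
      omega
    · omega
    · omega
  rw [← hN.spread σ hσ (∑ i ∈ range n, c i • unitVec i), Finsupp.mapDomain_finsetSum]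
  congr 1
  refine sum_congr rfl fun i hi => ?_
  simp [unitVec, Finsupp.mapDomain_single, σ, mem_range.1 hi]

lemma IsModel.norm_altAt (hN : IsModel N p K θ) (R : ℕ) (x : ℕ → ℕ)
    (hx : ∀ a b, a < b → b < 2 * R → x a < x b) : N (altAt R x) = N (alt R) :=
  hN.spread_range _ x hx _

lemma IsModel.norm_alt_le (hN : IsModel N p K θ) (R : ℕ) : N (alt R) ≤ 2 * R := by
  refine (le_sum_of_subadditive N (map_zero N).le (map_add_le_add N) _ _).trans ?_
  refine (sum_le_card_nsmul _ _ 1 fun i _ => ?_).trans ?_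
  · rw [map_smul_eq_mul, Real.norm_eq_abs, abs_pow, abs_neg, abs_one, one_pow, one_mul]
    exact hN.le_one i
  · simp

lemma IsModel.norm_sum_units_le (hN : IsModel N p K θ) (A : Finset ℕ) (c : ℕ → ℝ)
    (hc : ∀ i ∈ A, |c i| ≤ 1) (x : ℕ → ℕ) : N (∑ i ∈ A, c i • unitVec (x i)) ≤ A.card := by
  refine (le_sum_of_subadditive N (map_zero N).le (map_add_le_add N) _ _).trans ?_
  refine (sum_le_card_nsmul _ _ 1 fun i hi => ?_).trans (by simp)
  rw [map_smul_eq_mul, Real.norm_eq_abs, ← one_mul (1 : ℝ)]
  exact mul_le_mul (hc i hi) (hN.le_one _) (apply_nonneg N _) zero_le_one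

/-- Monotone runs of length `t` turn into block averages. -/
lemma IsModel.norm_runs (hN : IsModel N p K θ) {t : ℕ} (ht : 0 < t) (R' : ℕ) (z : ℕ → ℕ → ℕ)
    (heven : ∀ r, r < 2 * R' → Even r → ∀ j, j + 1 < t → z r (j + 1) < z r j)
    (hodd : ∀ r, r < 2 * R' → ¬ Even r → ∀ j, j + 1 < t → z r j < z r (j + 1))
    (hnext : ∀ r, r + 1 < 2 * R' → ∀ j, j < t → z r j < z (r + 1) j) :
    N (∑ r ∈ range (2 * R'), (-1 : ℝ) ^ r • ∑ j ∈ range t, unitVec (z r j))
      = t * N (alt R') := by
  let o : ℕ → ℕ → ℕ := fun r l => if Even r then t - 1 - l else l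
  have hlt : ∀ q, q < 2 * R' * t → q / t < 2 * R' := fun q hq => (Nat.div_lt_iff_lt_mul ht).2 hq
  let x : ℕ → ℕ := fun q => z (q / t) (o (q / t) (q % t))
  have hsucc : ∀ q, q + 1 < 2 * R' * t → x q < x (q + 1) := by
    intro q hq
    have h1 := hlt q (by omega)
    have h2 := Nat.div_add_mod q t
    have h3 := Nat.mod_lt q ht
    rcases Nat.lt_or_ge (q % t + 1) t with hin | hin
    · have e1 : (q + 1) / t = q / t := by
        rw [show q + 1 = t * (q / t) + (q % t + 1) by omega, Nat.mul_add_div ht,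
          Nat.div_eq_of_lt hin, Nat.add_zero]
      have e2 : (q + 1) % t = q % t + 1 := by
        have := Nat.div_add_mod (q + 1) t
        rw [e1] at this
        omega
      simp only [x, e1, e2, o]
      by_cases he : Even (q / t)
      · simp only [he, if_true]
        rw [show t - 1 - q % t = (t - 1 - (q % t + 1)) + 1 by omega]
        exact heven _ h1 he _ (by omega)
      · simp only [he, if_false]
        exact hodd _ h1 he _ hin
    · have hq1 : q % t = t - 1 := by omega
      have e0 : q + 1 = t * (q / t + 1) := by rw [Nat.mul_add, Nat.mul_one]; omega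
      have e1 : (q + 1) / t = q / t + 1 := by rw [e0, Nat.mul_div_cancel_left _ ht]
      have e2 : (q + 1) % t = 0 := by rw [e0, Nat.mul_mod_right]
      have hr : q / t + 1 < 2 * R' := e1 ▸ hlt _ hq
      simp only [x, e1, e2, hq1, o]
      by_cases he : Even (q / t)
      · simp only [he, Nat.even_add_one, not_true, if_false, if_true]
        rw [show t - 1 - (t - 1) = 0 by omega]
        exact hnext _ hr 0 ht
      · simp only [he, Nat.even_add_one, not_false_eq_true, if_false, if_true, Nat.sub_zero]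
        exact hnext _ hr _ (by omega)
  have hmono : ∀ a b, a < b → b < 2 * R' * t → x a < x b := by
    intro a b hab
    induction b, Nat.succ_le_of_lt hab using Nat.le_induction with
    | base => exact hsucc a
    | succ b _ ih => exact fun hb => (ih (by omega) (by omega)).trans (hsucc b hb)
  have hx : ∀ r, ∀ l < t, x (t * r + l) = z r (o r l) := fun r l hl => by
    simp only [x]
    rw [Nat.mul_add_div ht, Nat.div_eq_of_lt hl, Nat.add_zero, Nat.mul_add_mod,
      Nat.mod_eq_of_lt hl]
  have hform : ∀ g : ℕ → ℕ, ∑ q ∈ range (2 * R' * t), (-1 : ℝ) ^ (q / t) • unitVec (g q)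
      = ∑ r ∈ range (2 * R'), (-1 : ℝ) ^ r • ∑ l ∈ range t, unitVec (g (t * r + l)) := by
    intro g
    rw [sum_range_mul' t (2 * R')]
    refine sum_congr rfl fun r _ => ?_
    rw [smul_sum]
    refine sum_congr rfl fun l hl => ?_
    rw [Nat.mul_add_div ht, Nat.div_eq_of_lt (mem_range.1 hl), Nat.add_zero]
  have hz : ∀ r, ∑ j ∈ range t, unitVec (z r j) = ∑ l ∈ range t, unitVec (x (t * r + l)) := by
    intro r
    refine Eq.trans ?_ (sum_congr rfl fun l hl => congrArg unitVec (hx r l (mem_range.1 hl))).symm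
    by_cases he : Even r
    · simp only [o, he, if_true]
      exact (sum_range_reflect (fun j => unitVec (z r j)) t).symm
    · simp only [o, he, if_false]
  simp only [hz, ← hform]
  rw [hN.spread_range _ x hmono fun q => (-1 : ℝ) ^ (q / t), hform fun q => q]
  have hblk : ∑ r ∈ range (2 * R'), (-1 : ℝ) ^ r • ∑ l ∈ range t, unitVec (t * r + l)
      = (t : ℝ) • blk t (alt R') := by
    simp only [alt, map_sum, map_smul, smul_sum]
    refine sum_congr rfl fun r _ => ?_
    rw [unitVec, blk_single, one_smul, ← smul_sum]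
    have htr : (t : ℝ) ≠ 0 := by exact_mod_cast ht.ne'
    rw [smul_sum, smul_comm, smul_sum, smul_sum, smul_sum]
    refine sum_congr rfl fun l _ => ?_
    rw [smul_smul (t : ℝ), mul_inv_cancel₀ htr, one_smul]
  rw [hblk, map_smul_eq_mul, Real.norm_eq_abs, Nat.abs_cast, hN.block t ht]

/-- Signed alternating vectors with offsets that form monotone runs. -/
theorem IsModel.norm_signed_sum (hN : IsModel N p K θ) {t R : ℕ} (ht : 0 < t) (hR : 2 * t ≤ R)
    (b : ℕ → Bool) (x : ℕ → ℕ → ℕ) (c : ℕ → ℕ)
    (hx : ∀ j < t, ∀ a a', a < a' → a' < 2 * R → x j a < x j a')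
    (hc : ∀ j < t, c j ≤ 4 * t) (hsign : ∀ j < t, sgn (b j) * (-1 : ℝ) ^ c j = 1)
    (hlink : ∀ j, j + 1 < t → ∀ r, r < 2 * (R - 2 * t) →
      if Even r then x (j + 1) (r + c (j + 1)) < x j (r + c j)
      else x j (r + c j) < x (j + 1) (r + c (j + 1))) :
    (t : ℝ) * N (alt R) - 8 * (t : ℝ) ^ 2 ≤ N (∑ j ∈ range t, sgn (b j) • altAt R (x j)) := by
  set R' := R - 2 * t with hR'
  set main := ∑ r ∈ range (2 * R'), (-1 : ℝ) ^ r • ∑ j ∈ range t, unitVec (x j (r + c j)) with hm
  have hmain : N main = t * N (alt R') := by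
    refine hN.norm_runs ht R' (fun r j => x j (r + c j)) (fun r hr he j hj => ?_)
      (fun r hr he j hj => ?_) fun r hr j hj => ?_
    · simpa [he] using hlink j hj r hr
    · simpa [he] using hlink j hj r hr
    · exact hx j hj _ _ (by omega) (by have := hc j hj; omega)
  have hR'R : N (alt R) ≤ N (alt R') + 4 * (t : ℝ) := by
    have e : alt R = alt R' + ∑ i ∈ Ico (2 * R') (2 * R), (-1 : ℝ) ^ i • unitVec i := by
      rw [alt, alt, sum_range_add_sum_Ico _ (by omega)]
    rw [e]
    refine (map_add_le_add N _ _).trans (add_le_add le_rfl ?_)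
    refine (hN.norm_sum_units_le _ _ (fun i _ => by simp) id).trans ?_
    rw [Nat.card_Ico, show 2 * R - 2 * R' = 4 * t by omega]
    push_cast
    exact le_rfl
  have hrest : N (main - ∑ j ∈ range t, sgn (b j) • altAt R (x j)) ≤ 4 * (t : ℝ) ^ 2 := by
    rw [map_sub_rev]
    have e : main = ∑ j ∈ range t, sgn (b j) •
        ∑ k ∈ Ico (c j) (c j + 2 * R'), (-1 : ℝ) ^ k • unitVec (x j k) := by
      rw [hm]
      simp only [smul_sum, smul_smul]
      rw [sum_comm]
      refine sum_congr rfl fun j hj => ?_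
      rw [sum_Ico_eq_sum_range, Nat.add_sub_cancel_left]
      refine sum_congr rfl fun r _ => ?_
      rw [pow_add, ← mul_assoc, hsign j (mem_range.1 hj), one_mul, add_comm (c j) r]
    rw [e, ← sum_sub_distrib]
    refine (le_sum_of_subadditive N (map_zero N).le (map_add_le_add N) _ _).trans ?_
    refine (sum_le_card_nsmul _ _ (4 * (t : ℝ)) fun j hj => ?_).trans ?_
    · have hsub : Ico (c j) (c j + 2 * R') ⊆ range (2 * R) := by
        intro k hk
        have := hc j (mem_range.1 hj)
        simp only [mem_Ico, mem_range] at hk ⊢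
        omega
      rw [← smul_sub, altAt, ← sum_sdiff hsub, add_sub_cancel_right, map_smul_eq_mul,
        show ‖sgn (b j)‖ = 1 by cases b j <;> simp [sgn], one_mul]
      refine (hN.norm_sum_units_le _ _ (fun i _ => by simp) _).trans ?_
      rw [card_sdiff_of_subset hsub, card_range, Nat.card_Ico,
        show 2 * R - (c j + 2 * R' - c j) = 4 * t by omega]
      push_cast
      exact le_rfl
    · rw [card_range, nsmul_eq_mul]
      nlinarith
  have h1 := map_sub_le_add N main (main - ∑ j ∈ range t, sgn (b j) • altAt R (x j))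
  have h2 : N main - N (∑ j ∈ range t, sgn (b j) • altAt R (x j))
      ≤ N (main - ∑ j ∈ range t, sgn (b j) • altAt R (x j)) :=
    (le_abs_self _).trans (abs_sub_map_le_sub N _ _)
  have htr : (0 : ℝ) ≤ t := Nat.cast_nonneg t
  nlinarith

end Vale.Agent.P125
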